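import Vale.Agent.P130.Rank.Defs

/-!
The one-dimensional objects of the graph waveform: the height profile, the Fresnel coefficients of
`e (s Y u)`, the windows of stationary frequencies and the coefficients of `e (-t fract y)`.
-/

open Real Finset MeasureTheory
open Vale.Agent.P110.Exist (e dot)

namespace Vale.Agent.P130.Rank.GW

/-- The height profile, onto `[0, R)` on `[0, 1)`. -/
noncomputable def Y (R d u : ℝ) : ℝ := R * (u + d * u ^ 2) / (1 + d)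

/-- The quadratic coefficient of `s Y`. -/
noncomputable def quadC (R d s : ℝ) : ℝ := s * (R / (1 + d)) * d

/-- The Fourier coefficient at `k` of the chirp `e (s Y u)` on `[0, 1]`. -/
noncomputable def E (R d s : ℝ) (k : ℤ) : ℂ := ∫ u in (0 : ℝ)..1, e (s * Y R d u - k * u)

/-- The Fourier coefficient at `k` of the graph `e (t ⌊Y u⌋)`. -/
noncomputable def H (R d t : ℝ) (k : ℤ) : ℂ :=
  ∫ u in (0 : ℝ)..1, e (t * (⌊Y R d u⌋₊ : ℝ) - k * u)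

/-- The ends of the slope range. -/
noncomputable def lo (R d γ : ℝ) : ℝ := R / (1 + d) * (1 + 2 * d * γ)

/-- The ends of the slope range. -/
noncomputable def hi (R d γ : ℝ) : ℝ := R / (1 + d) * (1 + 2 * d * (1 - γ))

/-- The frequencies `k` whose stationary point of `s Y u - k u` is in `[γ, 1 - γ]`. -/
noncomputable def win (R d γ s : ℝ) : Finset ℤ :=
  Finset.Icc ⌈min (s * lo R d γ) (s * hi R d γ)⌉ ⌊max (s * lo R d γ) (s * hi R d γ)⌋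

/-- The coefficient at `m` of `e (-t fract y)`. -/
noncomputable def bf (t : ℝ) (m : ℤ) : ℂ := ∫ x in (0 : ℝ)..1, e (-(t + m) * x)

/-- The cut in `m`, symmetric about `-1/2`. -/
noncomputable def cutSet (M : ℕ) : Finset ℤ := Finset.Ico (-(M : ℤ)) (M : ℤ)

/-- The size of `bf`. -/
noncomputable def bs (x : ℝ) : ℝ := |Real.sinc (π * x)|

/-- What the one-dimensional analysis owes. -/
structure CoefFacts (C : ℝ) : Prop where
  bf_norm : ∀ t m, ‖bf t m‖ = bs (t + m)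
  bf_sum : ∀ (t : ℝ) (M : ℕ), t ∈ Set.Icc (-1 : ℝ) 1 → 2 ≤ M →
    1 - C / M ≤ ∑ m ∈ cutSet M, bs (t + m) ^ 2 ∧ ∑ m ∈ cutSet M, bs (t + m) ^ 2 ≤ 1
  cut : ∀ (R : ℕ) (d t : ℝ) (M : ℕ) (S : Finset ℤ), 1 ≤ R → 0 ≤ d → d ≤ 1 →
    t ∈ Set.Icc (0 : ℝ) 1 → 2 ≤ M →
    ∑ k ∈ S, ‖H R d t k - ∑ m ∈ cutSet M, bf t m * E R d (t + m) k‖ ^ 2 ≤ C / M
  win_card : ∀ R d γ s : ℝ, 0 < R → 0 < d → s ≠ 0 → 0 < γ → γ < 1 / 2 →
    |((win R d γ s).card : ℝ) - 2 * |quadC R d s| * (1 - 2 * γ)| ≤ 1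
  win_lower : ∀ R d γ s : ℝ, 0 < R → 0 < d → s ≠ 0 → 0 < γ → γ < 1 / 2 → ∀ k ∈ win R d γ s,
    (1 - C / (γ * √|quadC R d s|)) / √(2 * |quadC R d s|) ≤ ‖E R d s k‖
  win_out : ∀ R d γ s : ℝ, 0 < R → 0 < d → s ≠ 0 → 0 < γ → γ < 1 / 2 → 1 ≤ |quadC R d s| →
    ∀ S : Finset ℤ, Disjoint S (win R d γ s) →
      ∑ k ∈ S, ‖E R d s k‖ ^ 2 ≤ 2 * γ + C / (γ * √|quadC R d s|)

end Vale.Agent.P130.Rank.GW
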