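import Vale.Agent.P110.Exist.Fresnel
import Vale.Agent.P130.Rank.GraphWave.Base

/-!
One-dimensional lemmas for the waveform: Fourier coefficients of a staircase exponential and of
quadratic chirps on the unit interval, with mean square errors.
-/

open Real Finset MeasureTheory
open Vale.Agent.P110.Exist

namespace Vale.Agent.P130.Rank.GW

attribute [local fun_prop] continuous_e

lemma intInt_of_le {E : Type*} [NormedAddCommGroup E] {f : ℝ → E} {B a b : ℝ}
    (hf : StronglyMeasurable f) (hb : ∀ x, ‖f x‖ ≤ B) : IntervalIntegrable f volume a b :=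
  intervalIntegrable_iff.2 <| Measure.integrableOn_of_bounded measure_Ioc_lt_top.ne
    hf.aestronglyMeasurable (Filter.Eventually.of_forall hb)

lemma conj_mul_e (z : ℂ) (s : ℝ) :
    (starRingEnd ℂ) (z * e s) = (starRingEnd ℂ) z * e (-s) := by rw [map_mul, e_neg]

/-- Orthogonality on the unit interval. -/
lemma int_e_int (k : ℤ) : ∫ u in (0 : ℝ)..1, e ((k : ℝ) * u) = if k = 0 then 1 else 0 := by
  split_ifs with h
  · subst h; simp
  · have hc : ((2 * π * k : ℝ) : ℂ) * Complex.I ≠ 0 := by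
      simp [pi_ne_zero, h]
    have hint : ∀ u : ℝ, e ((k : ℝ) * u) =
        Complex.exp (((2 * π * k : ℝ) : ℂ) * Complex.I * u) := by
      intro u; rw [e]; congr 1; push_cast; ring
    simp only [hint]
    rw [integral_exp_mul_complex hc]
    have h1 : Complex.exp (((2 * π * k : ℝ) : ℂ) * Complex.I * (1 : ℝ)) = 1 := by
      rw [← hint, mul_one, e_int]
    rw [h1]
    simp

/-- Mean square of a trigonometric sum. -/
lemma int_sq_sum (S : Finset ℤ) (a : ℤ → ℂ) :
    ∫ u in (0 : ℝ)..1, ‖∑ n ∈ S, a n * e ((n : ℝ) * u)‖ ^ 2 = ∑ n ∈ S, ‖a n‖ ^ 2 := by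
  apply Complex.ofReal_injective
  rw [← intervalIntegral.integral_ofReal]
  push_cast
  simp only [← Complex.mul_conj', map_sum, sum_mul, mul_sum, conj_mul_e]
  have hterm : ∀ (n n' : ℤ) (u : ℝ), a n * e ((n : ℝ) * u) *
      ((starRingEnd ℂ) (a n') * e (-((n' : ℝ) * u))) =
      a n * (starRingEnd ℂ) (a n') * e (((n - n' : ℤ) : ℝ) * u) := by
    intro n n' u
    rw [show (((n - n' : ℤ) : ℝ) * u) = (n : ℝ) * u + -((n' : ℝ) * u) by push_cast; ring, e_add]
    ring
  simp only [hterm]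
  rw [intervalIntegral.integral_finsetSum fun i _ =>
    (by fun_prop : Continuous _).intervalIntegrable _ _]
  refine sum_congr rfl fun i hi => ?_
  rw [intervalIntegral.integral_finsetSum fun j _ =>
    (by fun_prop : Continuous _).intervalIntegrable _ _]
  simp only [intervalIntegral.integral_const_mul, int_e_int, sub_eq_zero, mul_ite, mul_one,
    mul_zero]
  simp [hi]

/-- Error of the orthogonal projection on finitely many frequencies. -/
lemma proj_err {f : ℝ → ℂ} {B : ℝ} (hf : Measurable f) (hb : ∀ u, ‖f u‖ ≤ B) (S : Finset ℤ)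
    (c : ℤ → ℂ) (hc : ∀ n ∈ S, c n = ∫ u in (0 : ℝ)..1, f u * e (-((n : ℝ) * u))) :
    ∫ u in (0 : ℝ)..1, ‖f u - ∑ n ∈ S, c n * e ((n : ℝ) * u)‖ ^ 2 =
      (∫ u in (0 : ℝ)..1, ‖f u‖ ^ 2) - ∑ n ∈ S, ‖c n‖ ^ 2 := by
  have hg : Continuous fun u : ℝ => ∑ n ∈ S, c n * e ((n : ℝ) * u) := by fun_prop
  have hterm : ∀ (n : ℤ), IntervalIntegrable (fun u => f u * e (-((n : ℝ) * u))) volume 0 1 :=
    fun n => intInt_of_le (B := B) (hf.mul (by fun_prop : Continuous fun u : ℝ =>
      e (-((n : ℝ) * u))).measurable).stronglyMeasurable fun u => by simpa using hb u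
  have hexp : ∀ u, ‖f u - ∑ n ∈ S, c n * e ((n : ℝ) * u)‖ ^ 2 = ‖f u‖ ^ 2 +
      ‖∑ n ∈ S, c n * e ((n : ℝ) * u)‖ ^ 2 -
        2 * (∑ n ∈ S, (starRingEnd ℂ) (c n) * (f u * e (-((n : ℝ) * u)))).re := by
    intro u
    rw [Complex.sq_norm, Complex.normSq_sub, ← Complex.sq_norm, ← Complex.sq_norm, map_sum,
      mul_sum]
    congr 3
    refine sum_congr rfl fun n _ => ?_
    rw [conj_mul_e]; ring
  have hI1 : IntervalIntegrable (fun u => ‖f u‖ ^ 2) volume 0 1 :=
    intInt_of_le (B := B ^ 2) (hf.norm.pow_const 2).stronglyMeasurable fun u => by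
      rw [Real.norm_eq_abs, abs_of_nonneg (by positivity)]
      exact pow_le_pow_left₀ (norm_nonneg _) (hb u) 2
  have hI2 : IntervalIntegrable (fun u => ‖∑ n ∈ S, c n * e ((n : ℝ) * u)‖ ^ 2) volume 0 1 :=
    (hg.norm.pow 2).intervalIntegrable _ _
  have hI3 : IntervalIntegrable
      (fun u => ∑ n ∈ S, (starRingEnd ℂ) (c n) * (f u * e (-((n : ℝ) * u)))) volume 0 1 :=
    by
      have h := IntervalIntegrable.sum S fun n _ => (hterm n).const_mul ((starRingEnd ℂ) (c n))
      simpa only [Finset.sum_fn] using h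
  have hI4 : IntervalIntegrable (fun u =>
      (∑ n ∈ S, (starRingEnd ℂ) (c n) * (f u * e (-((n : ℝ) * u)))).re) volume 0 1 :=
    ⟨Complex.reCLM.integrable_comp hI3.1, Complex.reCLM.integrable_comp hI3.2⟩
  simp only [hexp]
  rw [intervalIntegral.integral_sub (hI1.add hI2) (hI4.const_mul 2),
    intervalIntegral.integral_add hI1 hI2, int_sq_sum,
    intervalIntegral.integral_const_mul]
  have hre := Complex.reCLM.intervalIntegral_comp_comm hI3
  simp only [Complex.reCLM_apply] at hre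
  rw [hre, intervalIntegral.integral_finsetSum fun n _ => (hterm n).const_mul _]
  simp only [intervalIntegral.integral_const_mul, Complex.re_sum]
  have : ∑ n ∈ S, ((starRingEnd ℂ) (c n) * ∫ u in (0 : ℝ)..1, f u * e (-((n : ℝ) * u))).re =
      ∑ n ∈ S, ‖c n‖ ^ 2 := sum_congr rfl fun n hn => by
    rw [← hc n hn, Complex.conj_mul', ← Complex.ofReal_pow, Complex.ofReal_re]
  rw [this]
  ring

/-- Bessel's inequality. -/
lemma bessel {f : ℝ → ℂ} {B : ℝ} (hf : Measurable f) (hb : ∀ u, ‖f u‖ ≤ B) (S : Finset ℤ) :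
    ∑ n ∈ S, ‖∫ u in (0 : ℝ)..1, f u * e (-((n : ℝ) * u))‖ ^ 2 ≤
      ∫ u in (0 : ℝ)..1, ‖f u‖ ^ 2 := by
  have h := proj_err hf hb S (fun n => ∫ u in (0 : ℝ)..1, f u * e (-((n : ℝ) * u))) fun _ _ => rfl
  have h0 := intervalIntegral.integral_nonneg (zero_le_one (α := ℝ)) (μ := volume)
    (f := fun u => ‖f u - ∑ n ∈ S,
      (∫ u in (0 : ℝ)..1, f u * e (-((n : ℝ) * u))) * e ((n : ℝ) * u)‖ ^ 2) fun u _ => by positivity
  linarith

lemma norm_e_sub_one (x : ℝ) : ‖e x - 1‖ = 2 * |Real.sin (π * x)| := by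
  rw [e, mul_comm, Complex.norm_exp_I_mul_ofReal_sub_one, Real.norm_eq_abs, abs_mul, abs_two]
  congr 3; ring

lemma bf_norm (t : ℝ) (m : ℤ) : ‖bf t m‖ = bs (t + m) := by
  by_cases h : t + (m : ℝ) = 0
  · simp [bf, bs, h]
  have hc : ((-(2 * π * (t + m)) : ℝ) : ℂ) * Complex.I ≠ 0 := by
    rw [mul_ne_zero_iff]
    refine ⟨Complex.ofReal_ne_zero.2 (neg_ne_zero.2 (mul_ne_zero ?_ h)), Complex.I_ne_zero⟩
    positivity
  have hint : ∀ y : ℝ, e (-(t + m) * y) =
      Complex.exp (((-(2 * π * (t + m)) : ℝ) : ℂ) * Complex.I * y) := by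
    intro y; rw [e]; congr 1; push_cast; ring
  simp only [bf, hint]
  rw [integral_exp_mul_complex hc, ← hint, ← hint, mul_zero, e_zero, norm_div, mul_one,
    norm_e_sub_one, bs, Real.sinc_of_ne_zero (mul_ne_zero pi_ne_zero h), abs_div, mul_neg,
    Real.sin_neg, abs_neg, norm_mul, Complex.norm_I, mul_one, Complex.norm_real, Real.norm_eq_abs,
    abs_neg, abs_mul, abs_mul, abs_mul, abs_two, abs_of_pos pi_pos]
  field_simp

lemma hasSum_bf (t : ℝ) : HasSum (fun m : ℤ => ‖bf t m‖ ^ 2) 1 := by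
  have : IsFiniteMeasure (volume.restrict (Set.Ioc (0 : ℝ) 1)) := ⟨by simp [Real.volume_Ioc]⟩
  have hmem : MemLp (fun y : ℝ => e (-(t * y))) 2 (volume.restrict (Set.Ioc (0 : ℝ) 1)) :=
    MemLp.of_bound (by fun_prop : Continuous fun y : ℝ => e (-(t * y))).aestronglyMeasurable
      1 (Filter.Eventually.of_forall fun y => (norm_e _).le)
  have h := hasSum_sq_fourierCoeffOn zero_lt_one hmem
  have hcoef : ∀ m : ℤ, fourierCoeffOn zero_lt_one (fun y : ℝ => e (-(t * y))) m = bf t m := by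
    intro m
    rw [fourierCoeffOn_eq_integral, bf]
    simp only [sub_zero, one_div, inv_one, one_smul, smul_eq_mul, fourier_coe_apply]
    refine intervalIntegral.integral_congr fun y _ => ?_
    simp only [e, ← Complex.exp_add]
    congr 1; push_cast; ring
  simp only [hcoef, sub_zero, inv_one, one_smul, norm_e, one_pow] at h
  simpa using h

lemma sum_tail_le (n K : ℕ) (hn : 1 ≤ n) :
    ∑ j ∈ Finset.Ioc n K, (1 : ℝ) / (((j : ℝ) - 1) * j) ≤ 1 / n := by
  have hn' : (0 : ℝ) < n := by exact_mod_cast hn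
  rcases le_total K n with h | h
  · rw [Finset.Ioc_eq_empty_of_le h, sum_empty]; positivity
  · suffices hs : ∑ j ∈ Finset.Ioc n K, (1 : ℝ) / (((j : ℝ) - 1) * j) = 1 / n - 1 / K by
      rw [hs]; linarith [show (0 : ℝ) ≤ 1 / K by positivity]
    induction K, h using Nat.le_induction with
    | base => simp
    | succ k hk ih =>
      have hk' : (0 : ℝ) < k := by exact_mod_cast hn.trans hk
      rw [Finset.sum_Ioc_succ_top hk, ih]
      push_cast
      rw [add_sub_cancel_right]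
      field_simp
      ring

/-- The frequencies outside the cut carry at most `1 / M` of the mass. -/
lemma sum_bf_ge {t : ℝ} (ht : t ∈ Set.Icc (-1 : ℝ) 1) {M : ℕ} (hM : 2 ≤ M) :
    1 - 1 / (M : ℝ) ≤ ∑ m ∈ cutSet M, ‖bf t m‖ ^ 2 := by
  suffices h : ∀ F : Finset ℤ, ∑ m ∈ F, ‖bf t m‖ ^ 2 ≤
      ∑ m ∈ cutSet M, ‖bf t m‖ ^ 2 + 1 / M by
    have := hasSum_le_of_sum_le (hasSum_bf t) h
    linarith
  intro F
  set K := F.sup Int.natAbs with hK
  refine le_trans (sum_le_sum_of_subset_of_nonneg (subset_union_left : F ⊆ F ∪ cutSet M)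
    fun _ _ _ => by positivity) ?_
  rw [union_comm, ← union_sdiff_self_eq_union, sum_union disjoint_sdiff]
  have hMR : (2 : ℝ) ≤ M := by exact_mod_cast hM
  have hterm : ∀ m ∈ F \ cutSet M, ‖bf t m‖ ^ 2 ≤
      (2 / π ^ 2) * (1 / ((((m.natAbs : ℕ) : ℝ) - 1) * (m.natAbs : ℕ))) := by
    intro m hm
    have hmS := (mem_sdiff.1 hm).2
    rw [cutSet, Finset.mem_Ico] at hmS
    have habs : M ≤ m.natAbs := by omega
    have ha : (2 : ℝ) ≤ ((m.natAbs : ℕ) : ℝ) := by exact_mod_cast (by omega : 2 ≤ m.natAbs)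
    have hcast : ((m.natAbs : ℕ) : ℝ) = |(m : ℝ)| := by rw [Nat.cast_natAbs, Int.cast_abs]
    have h1 : ((m.natAbs : ℕ) : ℝ) - 1 ≤ |t + m| := by
      rw [hcast]
      have := abs_add_le (t + m) (-t)
      rw [abs_neg, show t + (m : ℝ) + -t = m by ring] at this
      have : |t| ≤ 1 := abs_le.2 ht
      linarith
    have hne : t + (m : ℝ) ≠ 0 := fun h0 => by rw [h0, abs_zero] at h1; linarith
    rw [bf_norm, bs, Real.sinc_of_ne_zero (mul_ne_zero pi_ne_zero hne), abs_div, abs_mul,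
      abs_of_pos pi_pos, div_pow, mul_pow, div_mul_div_comm, mul_one]
    have hs : |Real.sin (π * (t + m))| ^ 2 ≤ 1 := pow_le_one₀ (abs_nonneg _) (abs_sin_le_one _)
    have h2 : (0 : ℝ) < ((m.natAbs : ℕ) : ℝ) - 1 := by linarith
    have h3 : 0 < |t + (m : ℝ)| := h2.trans_le h1
    rw [div_le_div_iff₀ (by positivity) (by positivity)]
    have h4 : (((m.natAbs : ℕ) : ℝ) - 1) * (m.natAbs : ℕ) ≤ 2 * |t + (m : ℝ)| ^ 2 := by nlinarith
    calc _ ≤ 1 * (π ^ 2 * ((((m.natAbs : ℕ) : ℝ) - 1) * (m.natAbs : ℕ))) :=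
          mul_le_mul_of_nonneg_right hs (by positivity)
      _ ≤ _ := by nlinarith [mul_le_mul_of_nonneg_left h4 (sq_nonneg π)]
  have hpos : ∀ j ∈ Finset.Ioc (M - 1) (M + K), (0 : ℝ) ≤ 1 / (((j : ℝ) - 1) * j) := by
    intro j hj
    have : (1 : ℝ) ≤ j := by
      have := (Finset.mem_Ioc.1 hj).1
      exact_mod_cast (by omega : 1 ≤ j)
    have : (0 : ℝ) ≤ (j : ℝ) - 1 := by linarith
    positivity
  have hfib : ∑ m ∈ F \ cutSet M, (1 : ℝ) / ((((m.natAbs : ℕ) : ℝ) - 1) * (m.natAbs : ℕ)) ≤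
      ∑ j ∈ Finset.Ioc (M - 1) (M + K), 2 * ((1 : ℝ) / (((j : ℝ) - 1) * j)) := by
    rw [← sum_fiberwise_of_maps_to (t := Finset.Ioc (M - 1) (M + K)) (g := Int.natAbs)
      (fun m hm => by
        obtain ⟨hmF, hmS⟩ := mem_sdiff.1 hm
        rw [cutSet, Finset.mem_Ico] at hmS
        have := Finset.le_sup (f := Int.natAbs) hmF
        rw [Finset.mem_Ioc]
        omega)]
    refine sum_le_sum fun j hj' => ?_
    calc _ = ∑ m ∈ F \ cutSet M with m.natAbs = j, (1 : ℝ) / (((j : ℝ) - 1) * j) :=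
          sum_congr rfl fun m hm => by rw [(mem_filter.1 hm).2]
      _ ≤ ∑ m ∈ ({(j : ℤ), -(j : ℤ)} : Finset ℤ), (1 : ℝ) / (((j : ℝ) - 1) * j) := by
          refine sum_le_sum_of_subset_of_nonneg (fun m hm => ?_) fun _ _ _ => hpos j hj'
          have := (mem_filter.1 hm).2
          simp only [mem_insert, mem_singleton]
          omega
      _ ≤ _ := by
          rw [sum_const, nsmul_eq_mul]
          exact mul_le_mul_of_nonneg_right (by exact_mod_cast card_le_two) (hpos j hj')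
  have htail := sum_tail_le (M - 1) (M + K) (by omega)
  rw [← mul_sum] at hfib
  have h2 : ∑ m ∈ F \ cutSet M, ‖bf t m‖ ^ 2 ≤ (2 / π ^ 2) * (2 * (1 / ((M - 1 : ℕ) : ℝ))) := by
    refine (sum_le_sum hterm).trans ?_
    rw [← mul_sum]
    exact mul_le_mul_of_nonneg_left (hfib.trans (by linarith)) (by positivity)
  have h3 : (2 / π ^ 2) * (2 * (1 / ((M - 1 : ℕ) : ℝ))) ≤ 1 / M := by
    rw [Nat.cast_sub (by omega)]
    push_cast
    have hπ : (9 : ℝ) ≤ π ^ 2 := by nlinarith [pi_gt_three]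
    have hM1 : (0 : ℝ) < (M : ℝ) - 1 := by linarith
    rw [show (2 / π ^ 2) * (2 * (1 / ((M : ℝ) - 1))) = 4 / (π ^ 2 * ((M : ℝ) - 1)) by
      field_simp; ring,
      div_le_div_iff₀ (by positivity) (by positivity)]
    nlinarith
  linarith

lemma Y_strictMono {R d : ℝ} (hR : 0 < R) (hd : 0 ≤ d) : StrictMonoOn (Y R d) (Set.Icc 0 1) := by
  intro u hu v hv huv
  unfold Y
  have h1 : u + d * u ^ 2 < v + d * v ^ 2 := by
    nlinarith [mul_nonneg hd (mul_nonneg (sub_nonneg.2 huv.le) (add_nonneg hu.1 hv.1))]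
  gcongr

lemma hasDerivAt_Y (R d u : ℝ) : HasDerivAt (Y R d) (R * (1 + 2 * d * u) / (1 + d)) u := by
  have h := (((hasDerivAt_id u).add (((hasDerivAt_id u).pow 2).const_mul d)).const_mul R).div_const
    (1 + d)
  simp only [id_eq, Nat.cast_ofNat, Nat.add_one_sub_one, pow_one, mul_one] at h
  exact h.congr_deriv (by ring)

/-- Integrals of periodic functions of `Y`. -/
lemma int_comp_Y_le {q : ℝ → ℝ} {B : ℝ} (hq : Measurable q) (hq0 : ∀ y, 0 ≤ q y)
    (hqB : ∀ y, q y ≤ B) (hper : Function.Periodic q 1) {R : ℕ} {d : ℝ} (hR : 1 ≤ R)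
    (hd : 0 ≤ d) (hd1 : d ≤ 1) :
    ∫ u in (0 : ℝ)..1, q (Y R d u) ≤ 2 * ∫ y in (0 : ℝ)..1, q y := by
  have hR' : (0 : ℝ) < R := by exact_mod_cast hR
  have hd' : (0 : ℝ) < 1 + d := by linarith
  have hcont : Continuous (Y R d) := by unfold Y; fun_prop
  have himg : Y R d '' Set.Icc 0 1 = Set.Icc (0 : ℝ) R := by
    rw [hcont.continuousOn.image_Icc_of_monotoneOn zero_le_one (Y_strictMono hR' hd).monotoneOn]
    congr 1
    · simp [Y]
    · simp [Y, hd'.ne']
  have hsub := integral_image_eq_integral_abs_deriv_smul (F := ℝ) measurableSet_Icc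
    (fun u _ => (hasDerivAt_Y R d u).hasDerivWithinAt) (Y_strictMono hR' hd).injOn q
  rw [himg, integral_Icc_eq_integral_Ioc, integral_Icc_eq_integral_Ioc,
    ← intervalIntegral.integral_of_le hR'.le, ← intervalIntegral.integral_of_le zero_le_one] at hsub
  have hperint : ∫ y in (0 : ℝ)..R, q y = (R : ℝ) * ∫ y in (0 : ℝ)..1, q y := by
    have h := hper.intervalIntegral_add_zsmul_eq (R : ℤ) 0 fun a b =>
      intInt_of_le (B := B) hq.stronglyMeasurable fun y => by
        rw [Real.norm_eq_abs, abs_of_nonneg (hq0 y)]; exact hqB y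
    simpa using h
  have hint1 : IntervalIntegrable (fun u => q (Y R d u)) volume 0 1 :=
    intInt_of_le (B := B) (hq.comp hcont.measurable).stronglyMeasurable fun u => by
      rw [Real.norm_eq_abs, abs_of_nonneg (hq0 _)]; exact hqB _
  have hle : (R / (1 + d)) * ∫ u in (0 : ℝ)..1, q (Y R d u) ≤
      (R : ℝ) * ∫ y in (0 : ℝ)..1, q y := by
    rw [← hperint, hsub, ← intervalIntegral.integral_const_mul]
    refine intervalIntegral.integral_mono_on zero_le_one (hint1.const_mul _)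
      (hint1.continuousOn_mul (g := fun u => |R * (1 + 2 * d * u) / (1 + d)|) ?_) ?_
    · exact Continuous.continuousOn (by fun_prop)
    · intro u hu
      refine mul_le_mul_of_nonneg_right (le_trans ?_ (le_abs_self _)) (hq0 _)
      gcongr
      nlinarith [mul_nonneg (mul_nonneg hR'.le hd) hu.1]
  have hI0 : 0 ≤ ∫ y in (0 : ℝ)..1, q y :=
    intervalIntegral.integral_nonneg zero_le_one fun y _ => hq0 y
  rw [div_mul_eq_mul_div, div_le_iff₀ hd', mul_assoc] at hle
  have := le_of_mul_le_mul_left hle hR'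
  nlinarith

lemma measurable_Y (R d : ℝ) : Measurable (Y R d) := by unfold Y; fun_prop

/-- The cut in `m`. -/
lemma cut_le {R : ℕ} {d t : ℝ} {M : ℕ} (S : Finset ℤ) (hR : 1 ≤ R) (hd : 0 ≤ d) (hd1 : d ≤ 1)
    (ht : t ∈ Set.Icc (0 : ℝ) 1) (hM : 2 ≤ M) :
    ∑ k ∈ S, ‖H R d t k - ∑ m ∈ cutSet M, bf t m * E R d (t + m) k‖ ^ 2 ≤ 2 / M := by
  set h : ℝ → ℂ := fun y => e (-(t * y)) - ∑ m ∈ cutSet M, bf t m * e ((m : ℝ) * y) with hh
  set B : ℝ := 1 + ∑ m ∈ cutSet M, ‖bf t m‖ with hB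
  have hhb : ∀ y, ‖h y‖ ≤ B := fun y => by
    refine (norm_sub_le _ _).trans (add_le_add (norm_e _).le ((norm_sum_le _ _).trans ?_))
    simp
  have hhm : Continuous h := by rw [hh]; fun_prop
  -- the error function
  set f : ℝ → ℂ := fun u => e (t * Y R d u) * h (Int.fract (Y R d u)) with hf
  have hfm : Measurable f := ((continuous_e.measurable.comp ((measurable_Y _ _).const_mul t)).mul
    (hhm.measurable.comp (measurable_fract.comp (measurable_Y _ _))))
  have hfb : ∀ u, ‖f u‖ ≤ B := fun u => by simpa [hf] using hhb _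
  have hfu : ∀ u ∈ Set.Icc (0 : ℝ) 1, f u = e (t * (⌊Y R d u⌋₊ : ℝ)) -
      ∑ m ∈ cutSet M, bf t m * e ((t + m) * Y R d u) := by
    intro u hu
    have hY : 0 ≤ Y R d u := by
      have : 0 ≤ u + d * u ^ 2 := by nlinarith [hu.1]
      unfold Y; positivity
    simp only [hf, hh, mul_sub, mul_sum]
    congr 1
    · rw [← e_add, natCast_floor_eq_intCast_floor hY]
      congr 1
      rw [Int.fract]; ring
    · refine sum_congr rfl fun m _ => ?_
      have h1 : e ((m : ℝ) * Int.fract (Y R d u)) = e ((m : ℝ) * Y R d u) := by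
        rw [← e_add_int ((m : ℝ) * Int.fract (Y R d u)) (m * ⌊Y R d u⌋)]
        congr 1
        rw [Int.fract]; push_cast; ring
      rw [h1, show (t + (m : ℝ)) * Y R d u = t * Y R d u + (m : ℝ) * Y R d u by ring, e_add]
      ring
  have hcoef : ∀ k : ℤ, H R d t k - ∑ m ∈ cutSet M, bf t m * E R d (t + m) k =
      ∫ u in (0 : ℝ)..1, f u * e (-((k : ℝ) * u)) := by
    intro k
    have hH : IntervalIntegrable (fun u => e (t * (⌊Y R d u⌋₊ : ℝ) - k * u)) volume 0 1 :=
      intInt_of_le (B := 1) (continuous_e.measurable.comp (((measurable_from_nat.comp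
        (Nat.measurable_floor.comp (measurable_Y _ _))).const_mul t).sub
        (measurable_id.const_mul _))).stronglyMeasurable fun u => (norm_e _).le
    have hE : ∀ m : ℤ, IntervalIntegrable
        (fun u => bf t m * e ((t + m) * Y R d u - k * u)) volume 0 1 :=
      fun m => (by unfold Y; fun_prop : Continuous _).intervalIntegrable _ _
    simp only [H, E, ← intervalIntegral.integral_const_mul]
    rw [← intervalIntegral.integral_finsetSum fun m _ => hE m,
      ← intervalIntegral.integral_sub hH (by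
        simpa only [Finset.sum_fn] using IntervalIntegrable.sum (cutSet M) fun m _ => hE m)]
    refine intervalIntegral.integral_congr fun u hu => ?_
    rw [Set.uIcc_of_le zero_le_one] at hu
    simp only [hfu u hu, sub_mul, sum_mul, sub_eq_add_neg (t * _) _,
      sub_eq_add_neg (_ * Y R d u) _, e_add]
    congr 1
    exact sum_congr rfl fun m _ => by ring
  simp only [hcoef]
  refine (bessel hfm hfb S).trans ?_
  have hq : ∫ u in (0 : ℝ)..1, ‖f u‖ ^ 2 =
      ∫ u in (0 : ℝ)..1, ‖h (Int.fract (Y R d u))‖ ^ 2 := by simp [hf]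
  rw [hq]
  refine (int_comp_Y_le (q := fun y => ‖h (Int.fract y)‖ ^ 2) (B := B ^ 2)
    ((hhm.measurable.comp measurable_fract).norm.pow_const 2) (fun y => by positivity)
    (fun y => pow_le_pow_left₀ (norm_nonneg _) (hhb _) 2)
    (fun y => by simp [Int.fract_add_one]) hR hd hd1).trans ?_
  have hfr : ∫ y in (0 : ℝ)..1, ‖h (Int.fract y)‖ ^ 2 = ∫ y in (0 : ℝ)..1, ‖h y‖ ^ 2 := by
    refine intervalIntegral.integral_congr_ae ?_
    filter_upwards [Measure.ae_ne volume (1 : ℝ)] with y hy hy'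
    rw [Set.uIoc_of_le zero_le_one] at hy'
    rw [Int.fract_eq_self.2 ⟨hy'.1.le, lt_of_le_of_ne hy'.2 hy⟩]
  have hproj := proj_err (f := fun y => e (-(t * y))) (B := 1)
    (by fun_prop : Continuous fun y : ℝ => e (-(t * y))).measurable (fun y => (norm_e _).le)
    (cutSet M) (bf t) fun m _ => intervalIntegral.integral_congr fun y _ => by
      rw [← e_add]; congr 1; ring
  simp only [norm_e, one_pow, intervalIntegral.integral_const, sub_zero, one_smul] at hproj
  rw [hfr, hh, hproj]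
  have := sum_bf_ge (t := t) ⟨by linarith [ht.1], ht.2⟩ hM
  have : (2 : ℝ) / M = 2 * (1 / M) := by ring
  linarith

/-- The modulus of a chirp integral with stationary point inside. -/
lemma norm_chirp {a b γ : ℝ} (ha : 0 < a) (hγ : 0 < γ) (h1 : γ ≤ -b / (2 * a))
    (h2 : -b / (2 * a) ≤ 1 - γ) :
    (1 - 6 / (γ * √(2 * a))) / √(2 * a) ≤ ‖∫ u in (0 : ℝ)..1, e (a * u ^ 2 + b * u)‖ := by
  set u0 := -b / (2 * a) with hu0
  set k := √(2 * a) with hk
  have hk0 : 0 < k := by positivity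
  have hk2 : k ^ 2 = 2 * a := Real.sq_sqrt (by positivity)
  have hint : ∀ u : ℝ, e (a * u ^ 2 + b * u) =
      e (-(a * u0 ^ 2)) * e ((k * u - k * u0) ^ 2 / 2) := by
    intro u
    rw [← e_add]
    congr 1
    have hb' : b = -(2 * a) * u0 := by rw [hu0]; field_simp
    rw [show (k * u - k * u0) ^ 2 = k ^ 2 * (u - u0) ^ 2 by ring, hk2, hb']
    ring
  simp only [hint]
  have hfr : ∫ s in k * 0 - k * u0..k * 1 - k * u0, e (s ^ 2 / 2) =
      fc + fresnelRem (k * (1 - u0)) + fresnelRem (k * u0) := by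
    have hc : Continuous fun s : ℝ => e (s ^ 2 / 2) := by fun_prop
    rw [← intervalIntegral.integral_interval_sub_left (a := (0 : ℝ)) (hc.intervalIntegrable _ _)
      (hc.intervalIntegrable _ _)]
    change fresnel (k * 1 - k * u0) - fresnel (k * 0 - k * u0) = _
    rw [mul_zero, zero_sub, P110.Exist.fresnel_neg,
      Fres.fresnelRem_of_pos (mul_pos hk0 (by linarith)),
      Fres.fresnelRem_of_pos (mul_pos hk0 (by linarith)),
      show k * 1 - k * u0 = k * (1 - u0) by ring]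
    ring
  rw [intervalIntegral.integral_const_mul,
    intervalIntegral.integral_comp_mul_sub (fun s => e (s ^ 2 / 2)) hk0.ne' (k * u0), hfr,
    norm_mul, norm_e, one_mul, norm_smul, Real.norm_eq_abs, abs_inv, abs_of_pos hk0, inv_mul_eq_div]
  refine div_le_div_of_nonneg_right ?_ hk0.le
  have hr : ∀ z, γ ≤ z → ‖fresnelRem (k * z)‖ ≤ 3 / (γ * k) := fun z hz => by
    refine (Fres.rem_le _).trans (div_le_div_of_nonneg_left (by norm_num) (by positivity) ?_)
    rw [abs_of_pos (mul_pos hk0 (hγ.trans_le hz))]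
    nlinarith [mul_le_mul_of_nonneg_left hz hk0.le]
  have h3 : ‖fc‖ ≤ ‖fc + fresnelRem (k * (1 - u0)) + fresnelRem (k * u0)‖ +
      ‖fresnelRem (k * (1 - u0))‖ + ‖fresnelRem (k * u0)‖ := by
    calc ‖fc‖ = ‖(fc + fresnelRem (k * (1 - u0)) + fresnelRem (k * u0)) -
          fresnelRem (k * (1 - u0)) - fresnelRem (k * u0)‖ := by congr 1; ring
      _ ≤ _ := (norm_sub_le _ _).trans (add_le_add (norm_sub_le _ _) le_rfl)
  rw [norm_fc] at h3
  have : 6 / (γ * k) = 3 / (γ * k) + 3 / (γ * k) := by ring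
  linarith [hr _ h1, hr (1 - u0) (by linarith)]

lemma quadC_ne {R d s : ℝ} (hR : 0 < R) (hd : 0 < d) (hs : s ≠ 0) : quadC R d s ≠ 0 := by
  unfold quadC; positivity

lemma winbounds {R d γ s k : ℝ} (hR : 0 < R) (hd : 0 < d) (hs : s ≠ 0) (hγ2 : γ < 1 / 2)
    (hk : min (s * lo R d γ) (s * hi R d γ) ≤ k ∧ k ≤ max (s * lo R d γ) (s * hi R d γ)) :
    γ ≤ (k / s - R / (1 + d)) / (2 * (R / (1 + d)) * d) ∧
      (k / s - R / (1 + d)) / (2 * (R / (1 + d)) * d) ≤ 1 - γ := by
  have hK : 0 < R / (1 + d) := by positivity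
  have hlh : lo R d γ ≤ hi R d γ := by
    unfold lo hi
    nlinarith [mul_pos hK hd]
  have h : lo R d γ ≤ k / s ∧ k / s ≤ hi R d γ := by
    rcases hs.lt_or_gt with h | h
    · rw [min_eq_right (mul_le_mul_of_nonpos_left hlh h.le),
        max_eq_left (mul_le_mul_of_nonpos_left hlh h.le)] at hk
      rw [le_div_iff_of_neg h, div_le_iff_of_neg h]
      constructor <;> linarith [hk.1, hk.2]
    · rw [min_eq_left (mul_le_mul_of_nonneg_left hlh h.le),
        max_eq_right (mul_le_mul_of_nonneg_left hlh h.le)] at hk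
      rw [le_div_iff₀ h, div_le_iff₀ h]
      constructor <;> linarith [hk.1, hk.2]
  unfold lo hi at h
  rw [le_div_iff₀ (by positivity), div_le_iff₀ (by positivity)]
  constructor <;> linarith [h.1, h.2]

lemma win_lower' {R d γ s : ℝ} (hR : 0 < R) (hd : 0 < d) (hs : s ≠ 0) (hγ : 0 < γ)
    (hγ2 : γ < 1 / 2) {k : ℤ}
    (hk : k ∈ win R d γ s) :
    (1 - 6 / (γ * √(2 * |quadC R d s|))) / √(2 * |quadC R d s|) ≤ ‖E R d s k‖ := by
  set K := R / (1 + d) with hK
  have hK0 : 0 < K := by positivity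
  have hE : ∀ u : ℝ, e (s * Y R d u - k * u) = e (quadC R d s * u ^ 2 + (s * K - k) * u) :=
    fun u => by congr 1; unfold Y quadC; rw [hK]; ring
  rw [win, Finset.mem_Icc, Int.ceil_le, Int.le_floor] at hk
  simp only [E, hE]
  rcases hs.lt_or_gt with h | h
  · have hq : quadC R d s < 0 :=
      mul_neg_of_neg_of_pos (mul_neg_of_neg_of_pos h hK0) hd
    have hconj : ∀ u : ℝ, e (quadC R d s * u ^ 2 + (s * K - k) * u) =
        (starRingEnd ℂ) (e (-quadC R d s * u ^ 2 + -(s * K - k) * u)) := fun u => by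
      rw [← e_neg]; congr 1; ring
    simp only [hconj]
    rw [abs_of_neg hq, intervalIntegral.intervalIntegral_conj, Complex.norm_conj]
    have hu : - -(s * K - k) / (2 * -quadC R d s) = (k / s - K) / (2 * K * d) := by
      unfold quadC; rw [← hK]; field_simp; ring
    obtain ⟨hk1, hk2⟩ := winbounds hR hd hs hγ2 hk
    exact norm_chirp (neg_pos.2 hq) hγ (hu ▸ hk1) (hu ▸ hk2)
  · have hq : 0 < quadC R d s := by unfold quadC; positivity
    rw [abs_of_pos hq]
    have hu : -(s * K - k) / (2 * quadC R d s) = (k / s - K) / (2 * K * d) := by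
      unfold quadC; rw [← hK]; field_simp; ring
    obtain ⟨hk1, hk2⟩ := winbounds hR hd hs hγ2 hk
    exact norm_chirp hq hγ (hu ▸ hk1) (hu ▸ hk2)

lemma card_win {R d γ s : ℝ} (hR : 0 < R) (hd : 0 < d) (hs : s ≠ 0) (hγ : γ < 1 / 2) :
    |((win R d γ s).card : ℝ) - 2 * |quadC R d s| * (1 - 2 * γ)| ≤ 1 := by
  set x := min (s * lo R d γ) (s * hi R d γ) with hx
  set y := max (s * lo R d γ) (s * hi R d γ) with hy
  have hlen : y - x = 2 * |quadC R d s| * (1 - 2 * γ) := by
    rw [hx, hy, max_sub_min_eq_abs, ← mul_sub, abs_mul]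
    have h1 : hi R d γ - lo R d γ = R / (1 + d) * d * (2 * (1 - 2 * γ)) := by
      unfold hi lo; ring
    rw [h1, quadC]
    simp only [abs_mul, abs_of_pos hd, abs_of_pos (by positivity : 0 < R / (1 + d)),
      abs_of_pos (by linarith : (0 : ℝ) < 1 - 2 * γ), abs_two]
    ring
  have hxy : x ≤ y := by rw [hx, hy]; exact min_le_max
  rw [← hlen, win, Int.card_Icc]
  have h1 := Int.le_ceil x
  have h2 := Int.ceil_lt_add_one x
  have h3 := Int.floor_le y
  have h4 := Int.lt_floor_add_one y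
  have hz : 0 ≤ ⌊y⌋ + 1 - ⌈x⌉ := by
    have : ((⌈x⌉ : ℤ) : ℝ) < ((⌊y⌋ + 2 : ℤ) : ℝ) := by push_cast; linarith
    have := Int.cast_lt.1 this
    omega
  have hc : (((⌊y⌋ + 1 - ⌈x⌉).toNat : ℕ) : ℝ) = ((⌊y⌋ + 1 - ⌈x⌉ : ℤ) : ℝ) := by
    exact_mod_cast Int.toNat_of_nonneg hz
  rw [hc, abs_le]
  push_cast
  constructor <;> linarith

lemma win_out' {R d γ s : ℝ} (hR : 0 < R) (hd : 0 < d) (hs : s ≠ 0) (hγ : 0 < γ)
    (hγ2 : γ < 1 / 2) (hq : 1 ≤ |quadC R d s|) {S : Finset ℤ}
    (hS : Disjoint S (win R d γ s)) :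
    ∑ k ∈ S, ‖E R d s k‖ ^ 2 ≤ 2 * γ + 20 / (γ * √|quadC R d s|) := by
  have hcont : Continuous fun u => e (s * Y R d u) := by unfold Y; fun_prop
  have hEi : ∀ k : ℤ, E R d s k = ∫ u in (0 : ℝ)..1, e (s * Y R d u) * e (-((k : ℝ) * u)) :=
    fun k => intervalIntegral.integral_congr fun u _ => by rw [← e_add]; rfl
  have hb := bessel (f := fun u => e (s * Y R d u)) (B := 1) hcont.measurable
    (fun u => (norm_e _).le) (S ∪ win R d γ s)
  simp only [← hEi, norm_e, one_pow, intervalIntegral.integral_const, sub_zero, one_smul] at hb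
  rw [sum_union hS] at hb
  set a := |quadC R d s| with ha
  set x := 1 / √(2 * a) with hx
  have hsa : 0 < √(2 * a) := by positivity
  have hx0 : 0 < x := by positivity
  have hx2 : x ^ 2 = 1 / (2 * a) := by rw [hx, div_pow, one_pow, Real.sq_sqrt (by positivity)]
  have hcard := (abs_le.1 (card_win hR hd hs hγ2)).1
  have hwin : 1 - 2 * γ - x ^ 2 - 12 * x / γ ≤ ∑ k ∈ win R d γ s, ‖E R d s k‖ ^ 2 := by
    rcases le_or_gt (1 - 2 * γ - x ^ 2 - 12 * x / γ) 0 with h | h
    · exact h.trans (sum_nonneg fun _ _ => by positivity)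
    have hp : 0 ≤ 1 - 12 * x / γ := by
      nlinarith [sq_nonneg x]
    have hq' : 0 ≤ 1 - 2 * γ - x ^ 2 := by
      have : 0 ≤ 12 * x / γ := by positivity
      linarith
    have hone : ∀ k ∈ win R d γ s, x ^ 2 * (1 - 12 * x / γ) ≤ ‖E R d s k‖ ^ 2 := by
      intro k hk
      have hl := win_lower' hR hd hs hγ hγ2 hk
      rw [← ha, show (1 - 6 / (γ * √(2 * a))) / √(2 * a) = x * (1 - 6 * x / γ) by
        rw [hx]; field_simp] at hl
      have h6 : 0 ≤ 1 - 6 * x / γ := by
        have : 6 * x / γ ≤ 12 * x / γ := by gcongr; norm_num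
        linarith
      have := pow_le_pow_left₀ (mul_nonneg hx0.le h6) hl 2
      refine le_trans ?_ this
      rw [mul_pow]
      refine mul_le_mul_of_nonneg_left ?_ (sq_nonneg _)
      rw [show 12 * x / γ = 2 * (6 * x / γ) by ring]
      nlinarith [sq_nonneg (6 * x / γ)]
    refine le_trans ?_ (card_nsmul_le_sum _ _ _ hone)
    rw [nsmul_eq_mul]
    have h5 : 1 - 2 * γ - x ^ 2 ≤ ((win R d γ s).card : ℝ) * x ^ 2 := by
      rw [← ha] at hcard
      have : (2 * a * (1 - 2 * γ) - 1) * x ^ 2 ≤ ((win R d γ s).card : ℝ) * x ^ 2 :=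
        mul_le_mul_of_nonneg_right (by linarith) (sq_nonneg _)
      refine le_trans (le_of_eq ?_) this
      rw [hx2]; field_simp
    calc 1 - 2 * γ - x ^ 2 - 12 * x / γ ≤ (1 - 2 * γ - x ^ 2) * (1 - 12 * x / γ) := by
          have : 0 ≤ 12 * x / γ := by positivity
          nlinarith [mul_nonneg this (by linarith [sq_nonneg x] : (0 : ℝ) ≤ 2 * γ + x ^ 2)]
      _ ≤ ((win R d γ s).card : ℝ) * x ^ 2 * (1 - 12 * x / γ) :=
          mul_le_mul_of_nonneg_right h5 hp
      _ = _ := by ring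
  have hsqrt : x ≤ 1 / √a := by
    rw [hx]; gcongr; linarith
  have h1 : 12 * x / γ ≤ 12 * (1 / √a) / γ := by gcongr
  have hsa1 : 1 ≤ √a := Real.one_le_sqrt.2 hq
  have h2 : x ^ 2 ≤ 1 / √a / γ := by
    rw [div_div, hx2]
    refine one_div_le_one_div_of_le (by positivity) ?_
    nlinarith [Real.sq_sqrt (abs_nonneg (quadC R d s))]
  have h3 : 20 / (γ * √a) = 20 * (1 / √a / γ) := by ring
  have h4 : 12 * (1 / √a) / γ = 12 * (1 / √a / γ) := by ring
  have h5 : 0 ≤ 1 / √a / γ := by positivity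
  linarith

theorem coefFacts : ∃ C : ℝ, 0 < C ∧ CoefFacts C := by
  refine ⟨20, by norm_num, bf_norm, fun t M ht hM => ⟨?_, ?_⟩, ?_, ?_, ?_, ?_⟩
  · have h := sum_bf_ge ht hM
    simp only [bf_norm] at h
    have : (1 : ℝ) / M ≤ 20 / M := by gcongr; norm_num
    linarith
  · have h := sum_le_hasSum (cutSet M) (fun _ _ => by positivity) (hasSum_bf t)
    simpa only [bf_norm] using h
  · intro R d t M S hR hd hd1 ht hM
    exact (cut_le S hR hd hd1 ht hM).trans (by gcongr; norm_num)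
  · exact fun R d γ s hR hd hs _ hγ2 => card_win hR hd hs hγ2
  · intro R d γ s hR hd hs hγ hγ2 k hk
    refine le_trans ?_ (win_lower' hR hd hs hγ hγ2 hk)
    have hq := abs_pos.2 (quadC_ne hR hd hs)
    refine div_le_div_of_nonneg_right ?_ (Real.sqrt_nonneg _)
    have : 6 / (γ * √(2 * |quadC R d s|)) ≤ 20 / (γ * √|quadC R d s|) := by
      gcongr
      · norm_num
      · linarith
    linarith
  · exact fun R d γ s hR hd hs hγ hγ2 hq S hS => win_out' hR hd hs hγ hγ2 hq hS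

end Vale.Agent.P130.Rank.GW
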