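import Vale.Agent.P130.Rank.GraphWave.Base

/-!
The graph waveform on the torus: `θ ↦ fract (θ 0 + √2 ∑ fract θ i)` turns a harmonic `e (k u)` into
products of the coefficients `gam`, whose squares have total mass one, nearly all of it on primitive
vectors once the number of coordinates is large.
-/

open Real Finset MeasureTheory
open scoped ComplexConjugate
open Vale.Agent.P110.Exist (e dot norm_e e_add e_zero e_int e_add_int continuous_e e_neg)

namespace Vale.Agent.P130.Rank.GW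

variable {D : ℕ}

/-- One coordinate of the cube. -/
noncomputable def unit : Measure ℝ := volume.restrict (Set.Ico (0 : ℝ) 1)

instance : IsProbabilityMeasure unit :=
  ⟨by simp [unit]⟩

lemma restrict_cube (n : ℕ) :
    (volume : Measure (Fin n → ℝ)).restrict (cube n) = Measure.pi fun _ => unit := by
  rw [cube, volume_pi, Measure.restrict_pi_pi]
  rfl

instance isProb_cube (n : ℕ) :
    IsProbabilityMeasure ((volume : Measure (Fin n → ℝ)).restrict (cube n)) := by
  rw [restrict_cube]; infer_instance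

lemma integral_unit (f : ℝ → ℂ) : ∫ x, f x ∂unit = ∫ x in (0 : ℝ)..1, f x := by
  rw [unit, intervalIntegral.integral_of_le zero_le_one, integral_Ico_eq_integral_Ioc]

/-- The coordinate read by the profile. -/
noncomputable def phase (θ : Fin (D + 1) → ℝ) : ℝ :=
  Int.fract (θ 0 + √2 * ∑ i : Fin D, Int.fract (θ i.succ))

lemma phase_mem (θ : Fin (D + 1) → ℝ) : phase θ ∈ Set.Ico (0 : ℝ) 1 :=
  ⟨Int.fract_nonneg _, Int.fract_lt_one _⟩

lemma phase_periodic (θ : Fin (D + 1) → ℝ) (z : Fin (D + 1) → ℤ) :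
    phase (fun i => θ i + (z i : ℝ)) = phase θ := by
  simp only [phase, Int.fract_add_intCast]
  rw [add_right_comm, Int.fract_add_intCast]

lemma measurable_phase : Measurable (phase (D := D)) := by
  unfold phase
  have h : ∀ i : Fin D, Measurable fun θ : Fin (D + 1) → ℝ => Int.fract (θ i.succ) := fun i =>
    measurable_fract.comp (measurable_pi_apply i.succ)
  exact measurable_fract.comp ((measurable_pi_apply 0).add
    ((Finset.measurable_sum Finset.univ fun i _ => h i).const_mul √2))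

/-- The coefficient at `j` of `e (√2 k fract x)`. -/
noncomputable def gam (k j : ℤ) : ℂ := ∫ x in (0 : ℝ)..1, e (((k : ℝ) * √2 - j) * x)

/-- Its square modulus. -/
noncomputable def qw (k j : ℤ) : ℝ := ‖gam k j‖ ^ 2

/-- The product over the last coordinates. -/
noncomputable def prodGam (k : ℤ) (n : Fin D → ℤ) : ℂ := ∏ i, gam k (n i)

/-- Its square modulus. -/
noncomputable def qprod (k : ℤ) (n : Fin D → ℤ) : ℝ := ∏ i, qw k (n i)

lemma e_sum {ι : Type} (s : Finset ι) (f : ι → ℝ) : e (∑ i ∈ s, f i) = ∏ i ∈ s, e (f i) := by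
  induction s using Finset.cons_induction with
  | empty => simp
  | cons a s ha ih => simp [e_add, ih]

/-- One period of a function of `fract`. -/
lemma period_shift (φ : ℝ → ℂ) (k : ℤ) (x : ℝ) :
    ∫ u in (0 : ℝ)..1, φ (Int.fract (u + x)) * e (-(k : ℝ) * u) =
      e ((k : ℝ) * x) * ∫ u in (0 : ℝ)..1, φ u * e (-(k : ℝ) * u) := by
  set ψ : ℝ → ℂ := fun u => φ (Int.fract u) * e (-(k : ℝ) * u)
  have hper : Function.Periodic ψ 1 := fun u => by
    simp only [ψ]
    rw [show u + 1 = u + ((1 : ℤ) : ℝ) by simp, Int.fract_add_intCast, mul_add,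
      show -(k : ℝ) * ((1 : ℤ) : ℝ) = ((-k : ℤ) : ℝ) by push_cast; ring, e_add_int]
  have h1 : ∀ u, φ (Int.fract (u + x)) * e (-(k : ℝ) * u) = e ((k : ℝ) * x) * ψ (u + x) := fun u => by
    simp only [ψ]
    rw [show -(k : ℝ) * u = (k : ℝ) * x + -(k : ℝ) * (u + x) by ring, e_add]
    ring
  simp only [h1]
  rw [intervalIntegral.integral_const_mul, intervalIntegral.integral_comp_add_right]
  congr 1
  have h2 := hper.intervalIntegral_add_eq x 0
  rw [zero_add, add_comm x] at h2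
  rw [zero_add, h2]
  refine intervalIntegral.integral_congr_ae ?_
  filter_upwards [show ∀ᵐ u : ℝ, u ≠ 1 by simp [ae_iff]] with u hu hu'
  rw [Set.uIoc_of_le zero_le_one] at hu'
  simp only [ψ]
  rw [Int.fract_eq_self.2 ⟨hu'.1.le, lt_of_le_of_ne hu'.2 hu⟩]

/-- **The coefficients of the waveform.** -/
theorem cube_coef {φ : ℝ → ℂ} (hφ : Measurable φ) {B : ℝ} (hB : ∀ u, ‖φ u‖ ≤ B)
    (n : Fin (D + 1) → ℤ) :
    ∫ θ in cube (D + 1), φ (phase θ) * e (-rdot n θ) =
      (∫ u in (0 : ℝ)..1, φ u * e (-(n 0 : ℝ) * u)) * prodGam (n 0) fun i => n i.succ := by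
  rw [restrict_cube]
  have hmp := (measurePreserving_piFinSuccAbove (fun _ : Fin (D + 1) => unit) 0).symm
  rw [← hmp.integral_comp' (fun θ => φ (phase θ) * e (-rdot n θ))]
  have hF : Measurable fun θ : Fin (D + 1) → ℝ => φ (phase θ) * e (-rdot n θ) :=
    (hφ.comp measurable_phase).mul (continuous_e.measurable.comp (by unfold rdot; fun_prop))
  have hint : Integrable (fun p : ℝ × (Fin D → ℝ) => φ (phase ((MeasurableEquiv.piFinSuccAbove
      (fun _ : Fin (D + 1) => ℝ) 0).symm p)) * e (-rdot n ((MeasurableEquiv.piFinSuccAbove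
      (fun _ : Fin (D + 1) => ℝ) 0).symm p))) (unit.prod (Measure.pi fun _ => unit)) :=
    (integrable_const B).mono' (hF.comp (MeasurableEquiv.measurable _)).aestronglyMeasurable
      (ae_of_all _ fun p => by simpa using hB _)
  rw [integral_prod_symm _ hint]
  set Hn := ∫ u in (0 : ℝ)..1, φ u * e (-(n 0 : ℝ) * u)
  have hin : ∀ y : Fin D → ℝ, ∫ x, φ (phase ((MeasurableEquiv.piFinSuccAbove
      (fun _ : Fin (D + 1) => ℝ) 0).symm (x, y))) * e (-rdot n ((MeasurableEquiv.piFinSuccAbove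
      (fun _ : Fin (D + 1) => ℝ) 0).symm (x, y))) ∂unit =
      Hn * ∏ i, e ((n 0 : ℝ) * √2 * Int.fract (y i) - (n i.succ : ℝ) * y i) := fun y => by
    have e1 : ∀ x, (MeasurableEquiv.piFinSuccAbove (fun _ : Fin (D + 1) => ℝ) 0).symm (x, y) =
        Fin.cons x y := fun x => by
      simp [MeasurableEquiv.piFinSuccAbove_symm_apply]; rfl
    have e2 : ∀ x, φ (phase (Fin.cons x y : Fin (D + 1) → ℝ)) * e (-rdot n (Fin.cons x y)) =
        e (∑ i, -((n i.succ : ℝ) * y i)) *
          (φ (Int.fract (x + √2 * ∑ i, Int.fract (y i))) * e (-(n 0 : ℝ) * x)) := fun x => by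
      simp only [phase, rdot, Fin.cons_zero, Fin.cons_succ, Fin.sum_univ_succ, neg_add, neg_mul,
        sum_neg_distrib, e_add]
      ring
    simp only [e1, e2]
    rw [integral_const_mul, integral_unit, period_shift, ← e_sum, ← mul_assoc, ← e_add, mul_comm]
    congr 2
    rw [mul_sum, mul_sum, ← sum_add_distrib]
    exact sum_congr rfl fun i _ => by ring
  simp only [hin]
  rw [integral_const_mul,
    integral_fintype_prod_eq_prod (𝕜 := ℂ) (μ := fun _ : Fin D => unit)
      (fun i x => e ((n 0 : ℝ) * √2 * Int.fract x - (n i.succ : ℝ) * x))]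
  congr 1
  refine prod_congr rfl fun i _ => ?_
  rw [gam, ← integral_unit]
  refine integral_congr_ae ?_
  filter_upwards [ae_restrict_mem measurableSet_Ico] with x hx
  rw [Int.fract_eq_self.2 hx]
  ring_nf

/-- Orthogonality. -/
lemma orth (m : Fin D → ℤ) :
    ∫ θ in cube D, e (rdot m θ) = if m = 0 then 1 else 0 := by
  rw [restrict_cube]
  simp only [rdot, e_sum]
  rw [integral_fintype_prod_eq_prod (𝕜 := ℂ) (fun i x => e ((m i : ℝ) * x))]
  have h1 : ∀ j : ℤ, ∫ x, e ((j : ℝ) * x) ∂unit = if j = 0 then 1 else 0 := fun j => by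
    rw [integral_unit]
    split_ifs with hj
    · simp [hj]
    · have hc : (2 * π * (j : ℝ) * Complex.I : ℂ) ≠ 0 := by
        simp [hj, pi_ne_zero, Complex.I_ne_zero]
      have he : ∀ x : ℝ, e ((j : ℝ) * x) = Complex.exp ((2 * π * (j : ℝ) * Complex.I) * x) :=
        fun x => by rw [e]; congr 1; push_cast; ring
      simp only [he]
      rw [integral_exp_mul_complex hc]
      have h1 := e_int j
      rw [← mul_one ((j : ℝ)), he] at h1
      rw [h1]
      simp
  simp only [h1]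
  split_ifs with hm
  · simp [hm]
  · obtain ⟨i, hi⟩ : ∃ i, m i ≠ 0 := by
      by_contra! h
      exact hm (funext h)
    exact prod_eq_zero (mem_univ i) (by simp [hi])

/-- The distance to a combination of harmonics. -/
theorem norm_sub_sq {ι : Type} (S : Finset ι) (v : ι → Fin D → ℤ) (hv : Set.InjOn v S)
    (c : ι → ℂ) {F : (Fin D → ℝ) → ℂ} (hF : Measurable F) (hF1 : ∀ θ, ‖F θ‖ = 1) :
    ∫ θ in cube D, ‖F θ - ∑ p ∈ S, c p * e (rdot (v p) θ)‖ ^ 2 =
      1 - 2 * ∑ p ∈ S, (conj (c p) * ∫ θ in cube D, F θ * e (-rdot (v p) θ)).re +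
        ∑ p ∈ S, ‖c p‖ ^ 2 := by
  classical
  set μ := (volume : Measure (Fin D → ℝ)).restrict (cube D)
  have hm : ∀ w : Fin D → ℤ, Measurable fun θ : Fin D → ℝ => e (rdot w θ) := fun w =>
    continuous_e.measurable.comp (by unfold rdot; fun_prop)
  have hb : ∀ {f : (Fin D → ℝ) → ℂ}, Measurable f → ∀ C : ℝ, (∀ θ, ‖f θ‖ ≤ C) → Integrable f μ :=
    fun hf C hC => (integrable_const C).mono' hf.aestronglyMeasurable (ae_of_all _ hC)
  have hA : ∀ p, Integrable (fun θ => conj (c p) * (F θ * e (-rdot (v p) θ))) μ := fun p =>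
    hb ((hF.mul (continuous_e.measurable.comp (by unfold rdot; fun_prop))).const_mul _) ‖c p‖
      fun θ => by simp [hF1]
  have hB : ∀ p p', Integrable (fun θ => conj (c p') * c p * e (rdot (v p - v p') θ)) μ := fun p p' =>
    hb ((hm _).const_mul _) (‖c p'‖ * ‖c p‖) fun θ => by simp
  have hsub : ∀ (a b : Fin D → ℤ) (θ : Fin D → ℝ), e (rdot (a - b) θ) = e (rdot a θ) * e (-rdot b θ) := fun a b θ => by
    rw [← e_add]
    congr 1
    simp only [rdot, Pi.sub_apply, Int.cast_sub, sub_mul, sum_sub_distrib, ← sub_eq_add_neg]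
  have hpt : ∀ θ, ‖F θ - ∑ p ∈ S, c p * e (rdot (v p) θ)‖ ^ 2 =
      1 - 2 * (∑ p ∈ S, conj (c p) * (F θ * e (-rdot (v p) θ))).re +
        (∑ p ∈ S, ∑ p' ∈ S, conj (c p') * c p * e (rdot (v p - v p') θ)).re := fun θ => by
    set g := ∑ p ∈ S, c p * e (rdot (v p) θ)
    have hg : conj g = ∑ p ∈ S, conj (c p) * e (-rdot (v p) θ) := by
      simp only [g, map_sum, map_mul, e_neg]
    have h2 : g * conj g = ∑ p ∈ S, ∑ p' ∈ S, conj (c p') * c p * e (rdot (v p - v p') θ) := by
      rw [hg, sum_mul_sum]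
      exact sum_congr rfl fun p _ => sum_congr rfl fun p' _ => by rw [hsub]; ring
    have h3 : F θ * conj g = ∑ p ∈ S, conj (c p) * (F θ * e (-rdot (v p) θ)) := by
      rw [hg, mul_sum]
      exact sum_congr rfl fun p _ => by ring
    rw [← h2, ← h3, Complex.sq_norm, Complex.normSq_sub, ← Complex.sq_norm (F θ), hF1,
      Complex.mul_conj g, Complex.ofReal_re]
    ring
  simp only [hpt]
  have i1 : Integrable (fun θ => ∑ p ∈ S, conj (c p) * (F θ * e (-rdot (v p) θ))) μ :=
    integrable_finsetSum _ fun p _ => hA p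
  have i2 : Integrable (fun θ => ∑ p ∈ S, ∑ p' ∈ S, conj (c p') * c p * e (rdot (v p - v p') θ)) μ :=
    integrable_finsetSum _ fun p _ => integrable_finsetSum _ fun p' _ => hB p p'
  have hre : ∀ {f : (Fin D → ℝ) → ℂ}, Integrable f μ → ∫ θ, (f θ).re ∂μ = (∫ θ, f θ ∂μ).re :=
    fun hf => integral_re hf
  have j1 : Integrable (fun θ => (∑ p ∈ S, conj (c p) * (F θ * e (-rdot (v p) θ))).re) μ := i1.re
  have j2 : Integrable (fun θ =>
      (∑ p ∈ S, ∑ p' ∈ S, conj (c p') * c p * e (rdot (v p - v p') θ)).re) μ := i2.re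
  have j3 : Integrable (fun θ => 1 - 2 * (∑ p ∈ S, conj (c p) * (F θ * e (-rdot (v p) θ))).re) μ :=
    (integrable_const (1 : ℝ)).sub (j1.const_mul 2)
  rw [integral_add j3 j2, integral_sub (integrable_const (1 : ℝ)) (j1.const_mul 2), integral_const, probReal_univ, one_smul,
    integral_const_mul, hre i1, hre i2, integral_finsetSum _ fun p _ => hA p, Complex.re_sum,
    integral_finsetSum _ fun p _ => integrable_finsetSum _ fun p' _ => hB p p', Complex.re_sum]
  congr 1
  · congr 2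
    exact sum_congr rfl fun p _ => by rw [integral_const_mul]
  · refine sum_congr rfl fun p hp => ?_
    rw [integral_finsetSum _ fun p' _ => hB p p', Complex.re_sum]
    simp only [integral_const_mul, μ, orth, sub_eq_zero]
    rw [sum_eq_single p (fun p' hp' hne => by
        rw [if_neg fun h => hne (hv hp hp' h).symm, mul_zero, Complex.zero_re])
      (fun h => absurd hp h), if_pos rfl, mul_one, mul_comm, Complex.mul_conj, Complex.ofReal_re,
      Complex.sq_norm]

/-! ### Mass of the coefficients -/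

/-- A sum over a union of finite sets. -/
lemma sum_biUnion_le_sum {ι α : Type} [DecidableEq α] (s : Finset ι) (t : ι → Finset α) {f : α → ℝ}
    (hf : ∀ a, 0 ≤ f a) : ∑ a ∈ s.biUnion t, f a ≤ ∑ i ∈ s, ∑ a ∈ t i, f a := by
  classical
  induction s using Finset.induction_on with
  | empty => simp
  | insert i s hi ih =>
    rw [biUnion_insert, sum_insert hi]
    refine le_trans ?_ (add_le_add le_rfl ih)
    rw [← sum_union_inter]
    exact le_add_of_nonneg_right (sum_nonneg fun a _ => hf a)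

lemma sqrt_two_mul_ne_int {k : ℤ} (hk : k ≠ 0) (j : ℤ) : (k : ℝ) * √2 ≠ j :=
  fun h => (irrational_sqrt_two.intCast_mul hk).ne_int j h

lemma gam_eq_bf (k j : ℤ) :
    gam k j = bf (Int.fract (-((k : ℝ) * √2))) (j + ⌊-((k : ℝ) * √2)⌋) := by
  unfold gam bf
  congr 1
  funext x
  congr 1
  rw [Int.fract]
  push_cast
  ring

lemma qw_eq {C : ℝ} (hC : CoefFacts C) (k j : ℤ) :
    qw k j = bs ((j : ℝ) - (k : ℝ) * √2) ^ 2 := by
  rw [qw, gam_eq_bf, hC.bf_norm, Int.fract]
  push_cast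
  ring_nf

lemma qw_neg (k j : ℤ) : qw (-k) (-j) = qw k j := by
  have h : gam (-k) (-j) = conj (gam k j) := by
    simp only [gam, intervalIntegral.intervalIntegral_eq_integral_uIoc, zero_le_one, if_true,
      one_smul, ← integral_conj]
    congr 1
    funext x
    rw [← e_neg]
    congr 1
    push_cast
    ring
  rw [qw, qw, h, Complex.norm_conj]

lemma qw_pos {C : ℝ} (hC : CoefFacts C) {k : ℤ} (hk : k ≠ 0) (j : ℤ) : 0 < qw k j := by
  rw [qw_eq hC]
  have hx : (j : ℝ) - (k : ℝ) * √2 ≠ 0 := sub_ne_zero.2 (sqrt_two_mul_ne_int hk j).symm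
  refine pow_pos (abs_pos.2 ?_) 2
  rw [Real.sinc_of_ne_zero (mul_ne_zero pi_ne_zero hx)]
  refine div_ne_zero ?_ (mul_ne_zero pi_ne_zero hx)
  rw [Ne, Real.sin_eq_zero_iff]
  rintro ⟨z, hz⟩
  have h1 : (z : ℝ) = (j : ℝ) - (k : ℝ) * √2 :=
    mul_left_cancel₀ pi_ne_zero (by linarith [mul_comm (z : ℝ) π])
  exact sqrt_two_mul_ne_int hk (j - z) (by push_cast; linarith)

/-- The masses are sub-probability weights, nearly one on a large set. -/
lemma qw_sum {C : ℝ} (hC : CoefFacts C) (k : ℤ) :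
    (∀ J : Finset ℤ, ∑ j ∈ J, qw k j ≤ 1) ∧
      ∀ ε : ℝ, 0 < ε → ∃ J : Finset ℤ, 1 - ε ≤ ∑ j ∈ J, qw k j := by
  classical
  set t := Int.fract (-((k : ℝ) * √2))
  set z := ⌊-((k : ℝ) * √2)⌋
  have ht : t ∈ Set.Icc (-1 : ℝ) 1 :=
    ⟨by linarith [Int.fract_nonneg (-((k : ℝ) * √2))], (Int.fract_lt_one _).le⟩
  have hq : ∀ j, qw k j = bs (t + (j + z : ℤ)) ^ 2 := fun j => by
    rw [qw, gam_eq_bf, hC.bf_norm]
  have hsum : ∀ M, ∑ j ∈ (cutSet M).image (fun m => m - z), qw k j =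
      ∑ m ∈ cutSet M, bs (t + m) ^ 2 := fun M => by
    rw [sum_image fun a _ b _ h => by simpa using h]
    simp [hq]
  refine ⟨fun J => ?_, fun ε hε => ?_⟩
  · set M := J.sup (fun j => (j + z).natAbs) + 2
    refine le_trans (sum_le_sum_of_subset_of_nonneg (t := (cutSet M).image (fun m => m - z))
      (fun j hj => ?_) fun j _ _ => sq_nonneg _) ((hsum M).trans_le (hC.bf_sum t M ht (by omega)).2)
    simp only [mem_image, cutSet, mem_Ico]
    have h1 := Finset.le_sup (f := fun j => (j + z).natAbs) hj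
    exact ⟨j + z, by omega, by ring⟩
  · obtain ⟨M, hM⟩ := exists_nat_gt (C / ε)
    refine ⟨(cutSet (M + 2)).image fun m => m - z, ?_⟩
    rw [hsum]
    refine le_trans ?_ (hC.bf_sum t (M + 2) ht (by omega)).1
    have h1 : C / ((M + 2 : ℕ) : ℝ) ≤ ε := by
      rw [div_le_iff₀ (by positivity)]
      rw [div_lt_iff₀ hε] at hM
      push_cast
      nlinarith
    linarith

/-- A vector without `y` of inner product one has a common divisor `p ≥ 2`. -/
lemma exists_dvd_of_not_prim {n : Fin (D + 1) → ℤ} (h0 : n 0 ≠ 0) (h : ¬ ∃ y, dot n y = 1) :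
    ∃ p ∈ (n 0).natAbs.divisors, 2 ≤ p ∧ ∀ i, (p : ℤ) ∣ n i := by
  obtain ⟨g, hg⟩ := Finset.gcd_eq_sum_mul univ n
  have hd : ∀ i, univ.gcd n ∣ n i := fun i => Finset.gcd_dvd (mem_univ i)
  refine ⟨(univ.gcd n).natAbs,
    Nat.mem_divisors.2 ⟨Int.natAbs_dvd_natAbs.2 (hd 0), Int.natAbs_ne_zero.2 h0⟩, ?_,
    fun i => Int.natAbs_dvd.2 (hd i)⟩
  by_contra hlt
  have hne : univ.gcd n ≠ 0 := fun e0 => h0 (zero_dvd_iff.1 (e0 ▸ hd 0))
  rcases Int.natAbs_eq (univ.gcd n) with e1 | e1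
  · refine h ⟨g, ?_⟩
    rw [dot, ← hg]; omega
  · refine h ⟨fun i => -g i, ?_⟩
    simp only [dot, mul_neg, sum_neg_distrib, ← hg]; omega

/-- The primitive vectors over a box with first entry `k`. -/
noncomputable def primBox (J : Finset ℤ) (k : ℤ) : Finset (Fin D → ℤ) :=
  haveI := Classical.decPred fun n : Fin D → ℤ => ∃ y, dot (Fin.cons k n : Fin (D + 1) → ℤ) y = 1
  (Fintype.piFinset fun _ => J).filter fun n => ∃ y, dot (Fin.cons k n : Fin (D + 1) → ℤ) y = 1

lemma mem_primBox {J : Finset ℤ} {k : ℤ} {n : Fin D → ℤ} :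
    n ∈ primBox J k ↔ (∀ i, n i ∈ J) ∧ ∃ y, dot (Fin.cons k n : Fin (D + 1) → ℤ) y = 1 := by
  classical
  simp [primBox, Fintype.mem_piFinset]

lemma qprod_primBox_le {C : ℝ} (hC : CoefFacts C) (J : Finset ℤ) (k : ℤ) :
    ∑ n ∈ primBox (D := D) J k, qprod k n ≤ 1 := by
  classical
  refine le_trans (sum_le_sum_of_subset_of_nonneg (t := Fintype.piFinset fun _ => J)
    (fun n hn => Fintype.mem_piFinset.2 (mem_primBox.1 hn).1)
    fun n _ _ => prod_nonneg fun i _ => sq_nonneg _) ?_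
  rw [show ∑ n ∈ Fintype.piFinset (fun _ : Fin D => J), qprod k n = ∏ _i : Fin D, ∑ j ∈ J, qw k j
    from (prod_univ_sum (fun _ : Fin D => J) fun _ j => qw k j).symm]
  exact prod_le_one (fun i _ => sum_nonneg fun j _ => sq_nonneg _) fun i _ => (qw_sum hC k).1 J

/-- All but a small mass is primitive. -/
lemma qprod_primBox_ge {C : ℝ} (hC : CoefFacts C) (J : Finset ℤ) {k : ℤ} (hk : k ≠ 0) :
    (∑ j ∈ J, qw k j) ^ D - (k.natAbs.divisors.card : ℝ) * (1 - qw k 1) ^ D ≤
      ∑ n ∈ primBox (D := D) J k, qprod k n := by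
  classical
  set full := Fintype.piFinset fun _ : Fin D => J
  have hq : ∀ n : Fin D → ℤ, 0 ≤ qprod k n := fun n => prod_nonneg fun i _ => sq_nonneg _
  set P2 := k.natAbs.divisors.filter (2 ≤ ·)
  set bad := fun p : ℕ => Fintype.piFinset fun _ : Fin D => J.filter fun j => (p : ℤ) ∣ j
  have hsub : full ⊆ primBox J k ∪ P2.biUnion bad := fun n hn => by
    rw [Fintype.mem_piFinset] at hn
    by_cases h : ∃ y, dot (Fin.cons k n : Fin (D + 1) → ℤ) y = 1
    · exact mem_union_left _ (mem_primBox.2 ⟨hn, h⟩)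
    obtain ⟨p, hp, hp2, hdvd⟩ := exists_dvd_of_not_prim (by simpa using hk) h
    refine mem_union_right _ (mem_biUnion.2 ⟨p, mem_filter.2 ⟨by simpa using hp, hp2⟩,
      Fintype.mem_piFinset.2 fun i => mem_filter.2 ⟨hn i, by simpa using hdvd i.succ⟩⟩)
  have hpow : ∀ J' : Finset ℤ, ∑ n ∈ Fintype.piFinset (fun _ : Fin D => J'), qprod k n =
      (∑ j ∈ J', qw k j) ^ D := fun J' => by
    rw [show ∑ n ∈ Fintype.piFinset (fun _ : Fin D => J'), qprod k n =
      ∏ _i : Fin D, ∑ j ∈ J', qw k j from (prod_univ_sum (fun _ : Fin D => J') fun _ j => qw k j).symm]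
    simp
  have hbad : ∀ p ∈ P2, ∑ n ∈ bad p, qprod k n ≤ (1 - qw k 1) ^ D := fun p hp => by
    rw [hpow]
    refine pow_le_pow_left₀ (sum_nonneg fun j _ => sq_nonneg _) ?_ D
    have h1 : (1 : ℤ) ∉ J.filter fun j => (p : ℤ) ∣ j := fun h => by
      have h2 := Int.le_of_dvd one_pos (mem_filter.1 h).2
      have := (mem_filter.1 hp).2
      omega
    have h3 := (qw_sum hC k).1 (insert 1 (J.filter fun j => (p : ℤ) ∣ j))
    rw [sum_insert h1] at h3
    linarith
  have hu : ∑ n ∈ full, qprod k n ≤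
      ∑ n ∈ primBox J k, qprod k n + ∑ p ∈ P2, ∑ n ∈ bad p, qprod k n :=
    (sum_le_sum_of_subset_of_nonneg hsub fun n _ _ => hq n).trans
      (le_trans (le_of_le_of_eq (le_add_of_nonneg_right (sum_nonneg fun n _ => hq n)) sum_union_inter)
        (add_le_add le_rfl (sum_biUnion_le_sum _ _ hq)))
  rw [hpow] at hu
  have h4 : ∑ p ∈ P2, ∑ n ∈ bad p, qprod k n ≤
      (k.natAbs.divisors.card : ℝ) * (1 - qw k 1) ^ D := by
    refine (sum_le_sum hbad).trans ?_
    rw [sum_const, nsmul_eq_mul]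
    refine mul_le_mul_of_nonneg_right (by exact_mod_cast card_filter_le _ _) (pow_nonneg ?_ D)
    have h5 := (qw_sum hC k).1 {1}
    rw [sum_singleton] at h5
    linarith
  linarith

/-- **Dimension and box for finitely many frequencies.** -/
theorem exists_box {C : ℝ} (hC : CoefFacts C) (K : Finset ℤ) (hK : ∀ k ∈ K, k ≠ 0) {ε : ℝ}
    (hε : 0 < ε) : ∃ (D : ℕ) (J : Finset ℤ), 1 ≤ D ∧ ∀ k ∈ K,
      1 - ε ≤ ∑ n ∈ primBox (D := D) J k, qprod k n := by
  classical
  have hq1 : ∀ k ∈ K, 0 ≤ 1 - qw k 1 ∧ 1 - qw k 1 < 1 := fun k hk => by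
    have h5 := (qw_sum hC k).1 {1}
    rw [sum_singleton] at h5
    exact ⟨by linarith, by linarith [qw_pos hC (hK k hk) 1]⟩
  have hlim : ∀ᶠ D : ℕ in Filter.atTop, ∀ k ∈ K,
      (k.natAbs.divisors.card : ℝ) * (1 - qw k 1) ^ D ≤ ε / 2 := by
    refine (K.eventually_all).2 fun k hk => ?_
    have h := (tendsto_pow_atTop_nhds_zero_of_lt_one (hq1 k hk).1 (hq1 k hk).2).const_mul
      (k.natAbs.divisors.card : ℝ)
    rw [mul_zero] at h
    exact h.eventually_le_const (by linarith)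
  obtain ⟨D, hD1, hD⟩ := (hlim.and (Filter.eventually_ge_atTop 1)).exists.imp fun D h => And.intro h.2 h.1
  set ε' := min 1 (ε / (2 * D))
  have hD0 : (1 : ℝ) ≤ D := by exact_mod_cast hD1
  have hε' : 0 < ε' := lt_min one_pos (by positivity)
  choose J hJ using fun k => (qw_sum hC k).2 ε' hε'
  refine ⟨D, K.biUnion J, hD1, fun k hk => le_trans ?_ (qprod_primBox_ge hC _ (hK k hk))⟩
  have h1 : 1 - ε' ≤ ∑ j ∈ K.biUnion J, qw k j :=
    (hJ k).trans (sum_le_sum_of_subset_of_nonneg (subset_biUnion_of_mem J hk)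
      fun j _ _ => sq_nonneg _)
  have h1' : 0 ≤ 1 - ε' := by linarith [min_le_left 1 (ε / (2 * (D : ℝ)))]
  have h2 := pow_le_pow_left₀ h1' h1 D
  have h3 : 1 + (D : ℝ) * -ε' ≤ (1 - ε') ^ D := by
    rw [sub_eq_add_neg]
    exact one_add_mul_le_pow (by linarith) D
  have h4 : (D : ℝ) * ε' ≤ ε / 2 := by
    refine (mul_le_mul_of_nonneg_left (min_le_right _ _) (by linarith)).trans (le_of_eq ?_)
    field_simp
  linarith [hD k hk]

end Vale.Agent.P130.Rank.GW
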