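import Vale.Agent.P130.Rank.GraphWave.Base

/-!
The frequencies active at a net point `t` and their weights, which do not depend on `t`.
-/

open Real Finset MeasureTheory
open Vale.Agent.P110.Exist (e dot)

namespace Vale.Agent.P130.Rank.GW

/-- The frequencies active at `t`. -/
noncomputable def act1 (R d γ : ℝ) (M : ℕ) (t : ℝ) : Finset ℤ :=
  (cutSet M).biUnion fun m => win R d γ (t + m)

/-- The weight of a frequency. -/
noncomputable def rho0 (R d : ℝ) (k : ℤ) : ℝ :=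
  bs (|(k : ℝ)| / (R / (1 + d))) ^ 2 / (2 * d * |(k : ℝ)|)

lemma rho0_neg (R d : ℝ) (k : ℤ) : rho0 R d (-k) = rho0 R d k := by simp [rho0]

lemma rho0_nonneg {d : ℝ} (hd : 0 ≤ d) (R : ℝ) (k : ℤ) : 0 ≤ rho0 R d k := by
  unfold rho0; positivity

lemma mem_win {R d γ s : ℝ} {k : ℤ} :
    k ∈ win R d γ s ↔ min (s * lo R d γ) (s * hi R d γ) ≤ (k : ℝ) ∧
      (k : ℝ) ≤ max (s * lo R d γ) (s * hi R d γ) := by
  simp [win, Int.ceil_le, Int.le_floor]

lemma lo_pos {R d γ : ℝ} (hR : 0 < R) (hd : 0 < d) (hγ : 0 < γ) : 0 < lo R d γ := by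
  unfold lo; positivity

lemma lo_le_hi {R d γ : ℝ} (hR : 0 < R) (hd : 0 < d) (hγ : γ < 1 / 2) :
    lo R d γ ≤ hi R d γ := by
  unfold lo hi
  exact mul_le_mul_of_nonneg_left (by nlinarith) (by positivity)

lemma win_neg {R d γ s : ℝ} {k : ℤ} : -k ∈ win R d γ (-s) ↔ k ∈ win R d γ s := by
  simp only [mem_win, neg_mul, min_neg_neg, max_neg_neg, Int.cast_neg, neg_le_neg_iff]
  tauto

lemma bs_neg (x : ℝ) : bs (-x) = bs x := by simp [bs, mul_neg, sinc_neg]

/-- The scalar comparison behind the weights. -/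
lemma ratio_bounds {a d u A B : ℝ} (ha : 0 ≤ a) (ha1 : a ≤ 1) (hd : 0 ≤ d) (hd' : 768 * d ≤ a / 2)
    (hu1 : 1 ≤ u) (hu2 : u ≤ 1 + 2 * d) (hB : 0 ≤ B) (hAl : (1 - a / 64) * B ≤ A)
    (hAu : A ≤ (1 + a / 64) * B) :
    (1 - a / 16) * B ^ 2 ≤ A ^ 2 / u ^ 3 ∧ A ^ 2 / u ^ 3 ≤ (1 + a / 16) * B ^ 2 := by
  have hl0 : 0 ≤ (1 - a / 64) * B := mul_nonneg (by linarith) hB
  have hA0 : 0 ≤ A := hl0.trans hAl
  have hu0 : 0 < u ^ 3 := pow_pos (by linarith) 3
  have h6 : 0 ≤ 1 - 6 * d := by linarith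
  have hu3' : u ^ 3 * (1 - 6 * d) ≤ 1 := by
    refine (mul_le_mul_of_nonneg_right (pow_le_pow_left₀ (by linarith) hu2 3) h6).trans ?_
    nlinarith [mul_nonneg hd hd, mul_nonneg (mul_nonneg hd hd) hd,
      mul_nonneg (mul_nonneg hd hd) (mul_nonneg hd hd)]
  constructor
  · have h2 : (1 - a / 16) * u ^ 3 ≤ (1 - a / 64) ^ 2 := by
      have h4 : 1 - a / 16 ≤ (1 - a / 32) * (1 - 6 * d) := by
        linarith [mul_nonneg ha hd]
      have h5 : (1 - a / 32) ≤ (1 - a / 64) ^ 2 := by linarith [sq_nonneg (a / 64)]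
      have h7 := (h4.trans (mul_le_mul_of_nonneg_right h5 h6))
      have h8 := mul_le_mul_of_nonneg_left hu3' (sq_nonneg (1 - a / 64))
      have h9 := mul_le_mul_of_nonneg_right h7 hu0.le
      linarith
    rw [le_div_iff₀ hu0]
    have h1 := pow_le_pow_left₀ hl0 hAl 2
    have h3 := mul_le_mul_of_nonneg_right h2 (sq_nonneg B)
    linarith
  · refine (div_le_self (sq_nonneg A) (one_le_pow₀ hu1)).trans ?_
    refine (pow_le_pow_left₀ hA0 hAu 2).trans ?_
    rw [mul_pow]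
    refine mul_le_mul_of_nonneg_right ?_ (sq_nonneg B)
    nlinarith

/-- Coefficient bookkeeping: the parameters. -/
structure Par (C η a : ℝ) (R : ℕ) (d γ : ℝ) (M : ℕ) : Prop where
  C_pos : 0 < C
  facts : CoefFacts C
  η_pos : 0 < η
  η_le : η ≤ 1 / 2
  a_pos : 0 < a
  a_le : a ≤ 1
  two_le_M : 2 ≤ M
  cut_le : C / M ≤ a ^ 2 / 64
  γ_pos : 0 < γ
  γ_le : 2 * γ ≤ min (a / 16) ((a / (16 * M)) ^ 2 / 2)
  d_pos : 0 < d
  d_le : 16 * ((M : ℝ) + 1) * d ≤ η * (a / 16)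
  one_le_R : 1 ≤ R
  one_le_Q : 1 ≤ η * ((R : ℝ) / (1 + d)) * d
  inv_Q : 8 / a ≤ η * ((R : ℝ) / (1 + d)) * d
  kap_le : C / (γ * √(η * ((R : ℝ) / (1 + d)) * d)) ≤ min (a / 16) ((a / (16 * M)) ^ 2 / 2)

lemma exists_par {C η a : ℝ} (hC0 : 0 < C) (hC : CoefFacts C) (hη : 0 < η) (hη2 : η ≤ 1 / 2)
    (ha : 0 < a) (ha1 : a ≤ 1) :
    ∃ (R : ℕ) (d γ : ℝ) (M : ℕ), Par C η a R d γ M := by
  obtain ⟨M₀, hM₀⟩ := exists_nat_gt (64 * C / a ^ 2)
  set M := M₀ + 2
  have hM : (0 : ℝ) < M := by positivity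
  have hcut : C / M ≤ a ^ 2 / 64 := by
    rw [div_le_div_iff₀ hM (by norm_num)]
    rw [div_lt_iff₀ (by positivity)] at hM₀
    push_cast [M]
    nlinarith
  set κ := min (a / 16) ((a / (16 * M)) ^ 2 / 2)
  have hκ : 0 < κ := lt_min (by positivity) (by positivity)
  set γ := κ / 2
  set d := η * (a / 16) / (16 * ((M : ℝ) + 1))
  have hd : 0 < d := by positivity
  have hd1 : d ≤ 1 := by
    rw [div_le_one (by positivity)]
    nlinarith
  set B := max (max 1 (8 / a)) ((C / (γ * κ)) ^ 2)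
  obtain ⟨R, hR⟩ := exists_nat_ge (2 * B / (η * d) + 1)
  have hB : 1 ≤ B := (le_max_left _ _).trans (le_max_left _ _)
  have hRB : B ≤ η * ((R : ℝ) / (1 + d)) * d := by
    have h1 : 2 * B ≤ R * (η * d) := (div_le_iff₀ (by positivity)).1 (by linarith)
    rw [show η * ((R : ℝ) / (1 + d)) * d = R * (η * d) / (1 + d) by ring,
      le_div_iff₀ (by positivity)]
    nlinarith
  refine ⟨R, d, γ, M, hC0, hC, hη, hη2, ha, ha1, by omega, hcut, by positivity,
    le_of_eq (by simp only [γ, κ]; ring), hd, le_of_eq (by simp only [d]; field_simp), ?_,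
    hB.trans hRB, ((le_max_right _ _).trans (le_max_left _ _)).trans hRB, ?_⟩
  · have : (0 : ℝ) < R := by
      have := div_nonneg (by linarith : (0 : ℝ) ≤ 2 * B) (mul_pos hη hd).le
      linarith
    exact_mod_cast this
  · set q := η * ((R : ℝ) / (1 + d)) * d
    have hsq : C / (γ * κ) ≤ √q := by
      rw [← Real.sqrt_sq (show 0 ≤ C / (γ * κ) by positivity)]
      exact Real.sqrt_le_sqrt ((le_max_right _ _).trans hRB)
    have hq : 0 < √q := lt_of_lt_of_le (by positivity) hsq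
    rw [div_le_iff₀ (by positivity)]
    rw [div_le_iff₀ (by positivity)] at hsq
    change C ≤ κ * (γ * √q)
    linarith

namespace Par

variable {C η a : ℝ} {R : ℕ} {d γ : ℝ} {M : ℕ} (P : Par C η a R d γ M)
include P

lemma R_pos : (0 : ℝ) < R := by exact_mod_cast P.one_le_R

lemma γ_lt : γ < 1 / 2 := by
  linarith [P.γ_le, min_le_left (a / 16) ((a / (16 * M)) ^ 2 / 2), P.a_le]

lemma d_small : 768 * d ≤ a / 2 := by
  have hM : (2 : ℝ) ≤ M := by exact_mod_cast P.two_le_M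
  nlinarith [P.d_le, mul_le_mul_of_nonneg_right hM P.d_pos.le,
    mul_le_mul_of_nonneg_right P.η_le (div_nonneg P.a_pos.le (by norm_num : (0 : ℝ) ≤ 16))]

lemma d_le_one : d ≤ 1 := by linarith [P.d_small, P.a_le, P.d_pos]

lemma drift_lt : 4 * d * ((M : ℝ) + 1) < η := by
  nlinarith [P.d_le, mul_le_mul_of_nonneg_left P.a_le P.η_pos.le, P.η_pos]

/-- The slope range of `s`, in scaled form. -/
lemma win_scaled {s : ℝ} (hs : s ≠ 0) {k : ℤ} (hk : k ∈ win R d γ s) :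
    ∃ u : ℝ, 1 ≤ u ∧ u ≤ 1 + 2 * d ∧ (k : ℝ) = s * ((R : ℝ) / (1 + d)) * u := by
  have hd := P.d_pos
  have hR' : (0 : ℝ) < (R : ℝ) / (1 + d) := div_pos P.R_pos (by linarith)
  rw [mem_win] at hk
  have hlh := lo_le_hi P.R_pos hd P.γ_lt
  refine ⟨(k : ℝ) / (s * ((R : ℝ) / (1 + d))), ?_, ?_, ?_⟩
  case refine_3 => field_simp [P.R_pos.ne']
  all_goals rcases hs.lt_or_gt with hs' | hs'
  all_goals
    first
    | (rw [le_div_iff_of_neg (mul_neg_of_neg_of_pos hs' hR')]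
       rw [min_eq_right (by nlinarith), max_eq_left (by nlinarith), lo, hi] at hk
       nlinarith [mul_pos (mul_pos (neg_pos.2 hs') hR') (mul_pos hd P.γ_pos)])
    | (rw [le_div_iff₀ (mul_pos hs' hR')]
       rw [min_eq_left (by nlinarith), max_eq_right (by nlinarith), lo, hi] at hk
       nlinarith [mul_pos (mul_pos hs' hR') (mul_pos hd P.γ_pos)])
    | (rw [div_le_iff_of_neg (mul_neg_of_neg_of_pos hs' hR')]
       rw [min_eq_right (by nlinarith), max_eq_left (by nlinarith), lo, hi] at hk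
       nlinarith [mul_pos (mul_pos (neg_pos.2 hs') hR') (mul_pos hd P.γ_pos)])
    | (rw [div_le_iff₀ (mul_pos hs' hR')]
       rw [min_eq_left (by nlinarith), max_eq_right (by nlinarith), lo, hi] at hk
       nlinarith [mul_pos (mul_pos hs' hR') (mul_pos hd P.γ_pos)])

lemma abs_shift_ge {t : ℝ} (ht : t ∈ Set.Icc η (1 / 2)) (m : ℤ) : η ≤ |t + m| := by
  rcases le_or_gt 0 m with hm | hm
  · have : (0 : ℝ) ≤ m := by exact_mod_cast hm
    exact le_trans (by linarith [ht.1]) (le_abs_self _)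
  · have : (m : ℝ) ≤ -1 := by exact_mod_cast (show m ≤ -1 by omega)
    exact le_trans (by linarith [ht.2, P.η_le]) (neg_le_abs _)

lemma shift_ne {t : ℝ} (ht : t ∈ Set.Icc η (1 / 2)) (m : ℤ) : t + (m : ℝ) ≠ 0 :=
  abs_pos.1 (P.η_pos.trans_le (P.abs_shift_ge ht m))

lemma abs_shift_le {t : ℝ} (ht : t ∈ Set.Icc η (1 / 2)) {m : ℤ} (hm : m ∈ cutSet M) :
    |t + m| ≤ (M : ℝ) + 1 := by
  rw [cutSet, Finset.mem_Ico] at hm
  have h1 : -(M : ℝ) ≤ m := by exact_mod_cast hm.1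
  have h2 : (m : ℝ) ≤ M := by exact_mod_cast hm.2.le
  exact abs_le.2 ⟨by linarith [ht.1, P.η_pos], by linarith [ht.2]⟩

/-- A frequency stays near `R'` times its shift. -/
lemma near {t : ℝ} (ht : t ∈ Set.Icc η (1 / 2)) {m : ℤ} (hm : m ∈ cutSet M) {k : ℤ}
    (hk : k ∈ win R d γ (t + m)) :
    |(k : ℝ) / ((R : ℝ) / (1 + d)) - (t + m)| < η / 2 := by
  obtain ⟨u, hu1, hu2, hku⟩ := P.win_scaled (P.shift_ne ht m) hk
  have hd := P.d_pos
  have hR := P.R_pos
  rw [hku, show (t + (m : ℝ)) * ((R : ℝ) / (1 + d)) * u / ((R : ℝ) / (1 + d)) - (t + m) =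
    (t + m) * (u - 1) by field_simp, abs_mul, abs_of_nonneg (show (0 : ℝ) ≤ u - 1 by linarith)]
  nlinarith [P.drift_lt, mul_le_mul (P.abs_shift_le ht hm) (show u - 1 ≤ 2 * d by linarith)
    (by linarith) (by positivity)]

lemma unique {t t' : ℝ} (ht : t ∈ Set.Icc η (1 / 2)) (ht' : t' ∈ Set.Icc η (1 / 2)) {m m' : ℤ}
    (hm : m ∈ cutSet M) (hm' : m' ∈ cutSet M) {k : ℤ} (hk : k ∈ win R d γ (t + m))
    (hk' : k ∈ win R d γ (t' + m')) : m = m' := by
  have h1 := abs_lt.1 (P.near ht hm hk)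
  have h2 := abs_lt.1 (P.near ht' hm' hk')
  have h3 : |((m - m' : ℤ) : ℝ)| < 1 := by
    push_cast
    exact abs_lt.2 ⟨by linarith [ht.1, ht.2, ht'.1, ht'.2, P.η_le],
      by linarith [ht.1, ht.2, ht'.1, ht'.2, P.η_le]⟩
  rw [← Int.cast_abs, ← Int.cast_one, Int.cast_lt] at h3
  have := abs_lt.1 h3
  omega

/-- Windows are intervals in the shift. -/
lemma win_convex {k : ℤ} {s₁ s s₂ : ℝ} (h1 : s₁ ≤ s) (h2 : s ≤ s₂) (hk₁ : k ∈ win R d γ s₁)
    (hk₂ : k ∈ win R d γ s₂) : k ∈ win R d γ s := by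
  have hl := lo_pos P.R_pos P.d_pos P.γ_pos
  have hh := hl.trans_le (lo_le_hi P.R_pos P.d_pos P.γ_lt)
  simp only [mem_win, min_le_iff, le_max_iff] at hk₁ hk₂ ⊢
  have a1 := mul_le_mul_of_nonneg_right h1 hl.le
  have a2 := mul_le_mul_of_nonneg_right h2 hl.le
  have b1 := mul_le_mul_of_nonneg_right h1 hh.le
  have b2 := mul_le_mul_of_nonneg_right h2 hh.le
  constructor
  · rcases hk₂.1 with h | h
    · exact Or.inl (a2.trans h)
    · exact Or.inr (b2.trans h)
  · rcases hk₁.2 with h | h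
    · exact Or.inl (h.trans a1)
    · exact Or.inr (h.trans b1)

lemma ne_zero {t : ℝ} (ht : t ∈ Set.Icc η (1 / 2)) {k : ℤ} (hk : k ∈ act1 R d γ M t) : k ≠ 0 := by
  obtain ⟨m, _, hkm⟩ := mem_biUnion.1 hk
  obtain ⟨u, hu1, _, hku⟩ := P.win_scaled (P.shift_ne ht m) hkm
  rintro rfl
  rw [Int.cast_zero] at hku
  refine mul_ne_zero (mul_ne_zero (P.shift_ne ht m) ?_) (by linarith) hku.symm
  exact (div_pos P.R_pos (by linarith [P.d_pos])).ne'

omit P in
lemma mirror {k : ℤ} (hk : k ∈ act1 R d γ M (1 / 2)) : -k ∈ act1 R d γ M (1 / 2) := by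
  obtain ⟨m, hm, hkm⟩ := mem_biUnion.1 hk
  refine mem_biUnion.2 ⟨-1 - m, ?_, ?_⟩
  · simp only [cutSet, Finset.mem_Ico] at hm ⊢; omega
  · rw [show (1 / 2 : ℝ) + ((-1 - m : ℤ) : ℝ) = -(1 / 2 + (m : ℝ)) by push_cast; ring, win_neg]
    exact hkm

lemma convex {k : ℤ} {t₁ t t₂ : ℝ} (ht₁ : t₁ ∈ Set.Icc η (1 / 2)) (ht₂ : t₂ ∈ Set.Icc η (1 / 2))
    (h1 : t₁ ≤ t) (h2 : t ≤ t₂) (hk₁ : k ∈ act1 R d γ M t₁) (hk₂ : k ∈ act1 R d γ M t₂) :
    k ∈ act1 R d γ M t := by
  obtain ⟨m₁, hm₁, hw₁⟩ := mem_biUnion.1 hk₁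
  obtain ⟨m₂, hm₂, hw₂⟩ := mem_biUnion.1 hk₂
  obtain rfl := P.unique ht₁ ht₂ hm₁ hm₂ hw₁ hw₂
  exact mem_biUnion.2 ⟨m₁, hm₁, P.win_convex (by linarith) (by linarith) hw₁ hw₂⟩

lemma opposite {k : ℤ} {t t' : ℝ} (ht : t ∈ Set.Icc η (1 / 2)) (ht' : t' ∈ Set.Icc η (1 / 2))
    (hk : k ∈ act1 R d γ M t) (hk' : -k ∈ act1 R d γ M t') : k ∈ act1 R d γ M (1 / 2) := by
  obtain ⟨m, hm, hw⟩ := mem_biUnion.1 hk
  obtain ⟨m', hm', hw'⟩ := mem_biUnion.1 hk'
  have h1 := abs_lt.1 (P.near ht hm hw)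
  have h2 := abs_lt.1 (P.near ht' hm' hw')
  rw [Int.cast_neg, neg_div] at h2
  have hsum : m + m' = -1 := by
    have a1 : (-2 : ℝ) < ((m + m' : ℤ) : ℝ) := by
      push_cast; linarith [ht.2, ht'.2, P.η_le]
    have a2 : ((m + m' : ℤ) : ℝ) < 0 := by
      push_cast; linarith [ht.1, ht'.1, P.η_pos]
    have b1 : (-2 : ℤ) < m + m' := by exact_mod_cast a1
    have b2 : m + m' < 0 := by exact_mod_cast a2
    omega
  obtain rfl : m' = -1 - m := by omega
  have hw2 : k ∈ win R d γ (1 - t' + m) := by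
    rw [← win_neg]
    convert hw' using 2
    push_cast; ring
  exact mem_biUnion.2 ⟨m, hm, P.win_convex (by linarith [ht.2]) (by linarith [ht'.2]) hw hw2⟩

/-- The weight agrees with the share of one frequency of the window, within `a / 16`. -/
lemma rho_compare {t : ℝ} (ht : t ∈ Set.Icc η (1 / 2)) {m : ℤ} (hm : m ∈ cutSet M) {k : ℤ}
    (hk : k ∈ win R d γ (t + m)) :
    (1 - a / 16) * (bs (t + m) ^ 2 / (2 * |quadC R d (t + m)|)) ≤ rho0 R d k ∧
      rho0 R d k ≤ (1 + a / 16) * (bs (t + m) ^ 2 / (2 * |quadC R d (t + m)|)) ∧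
      0 < rho0 R d k := by
  obtain ⟨u, hu1, hu2, hku⟩ := P.win_scaled (P.shift_ne ht m) hk
  have hd := P.d_pos
  have ha := P.a_pos
  have hu0 : 0 < u := by linarith
  set R' := (R : ℝ) / (1 + d)
  have hR' : 0 < R' := div_pos P.R_pos (by linarith)
  set s := |t + (m : ℝ)|
  have hs : 0 < s := P.η_pos.trans_le (P.abs_shift_ge ht m)
  have hQ : |quadC R d (t + m)| = s * R' * d := by
    rw [quadC, abs_mul, abs_mul, abs_of_pos hR', abs_of_pos hd]
  have hk0 : |(k : ℝ)| = s * R' * u := by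
    rw [hku, abs_mul, abs_mul, abs_of_pos hR', abs_of_pos hu0]
  have hb : ∀ x : ℝ, 0 < x → bs x = |sin (π * x)| / (π * x) := fun x hx => by
    rw [bs, Real.sinc_of_ne_zero (by positivity), abs_div, abs_of_pos (by positivity : 0 < π * x)]
  have hbs : bs (t + m) = bs s := by
    simp only [s]
    rcases abs_choice (t + (m : ℝ)) with h | h <;> rw [h]
    rw [bs_neg]
  set A := |sin (π * (s * u))|
  set B := |sin (π * s)|
  have hB : 2 * η ≤ B := by
    have e1 : B = |sin (π * (t + m))| := by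
      simp only [B, s]
      rcases abs_choice (t + (m : ℝ)) with h | h <;> rw [h]
      rw [mul_neg, sin_neg, abs_neg]
    rw [e1, show π * (t + (m : ℝ)) = π * t + (m : ℝ) * π by ring, sin_add_int_mul_pi, abs_mul,
      abs_neg_one_zpow, one_mul]
    refine le_trans ?_ (le_abs_self _)
    have h := mul_le_sin (x := π * t) (by nlinarith [pi_pos, ht.1, P.η_pos])
      (by nlinarith [pi_pos, ht.2])
    rw [show 2 / π * (π * t) = 2 * t by field_simp] at h
    linarith [ht.1]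
  have hB0 : 0 < B := lt_of_lt_of_le (by linarith [P.η_pos]) hB
  have hAB : |A - B| ≤ a / 64 * B := by
    have h1 : |A - B| ≤ π * (s * (u - 1)) := by
      refine (abs_abs_sub_abs_le_abs_sub _ _).trans
        ((abs_sin_sub_sin_le _ _).trans (le_of_eq ?_))
      rw [show π * (s * u) - π * s = π * (s * (u - 1)) by ring,
        abs_of_nonneg (mul_nonneg pi_pos.le (mul_nonneg hs.le (by linarith)))]
    have h2 : s * (u - 1) ≤ ((M : ℝ) + 1) * (2 * d) :=
      mul_le_mul (P.abs_shift_le ht hm) (by linarith) (by linarith) (by positivity)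
    nlinarith [P.d_le, mul_le_mul_of_nonneg_left hB (show 0 ≤ a / 64 by positivity),
      mul_le_mul pi_le_four h2 (by nlinarith) (by norm_num)]
  obtain ⟨hA1, hA2⟩ := abs_le.1 hAB
  have hAl : (1 - a / 64) * B ≤ A := by linarith
  have hAu : A ≤ (1 + a / 64) * B := by linarith
  have ha64 : 0 ≤ 1 - a / 64 := by linarith [P.a_le]
  set Z := (π * s) ^ 2 * (2 * (s * R' * d))
  have hZ : 0 < Z := by positivity
  have hr : rho0 R d k = A ^ 2 / u ^ 3 / Z := by
    simp only [rho0, hk0, R', Z, A]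
    rw [show s * ((R : ℝ) / (1 + d)) * u / ((R : ℝ) / (1 + d)) = s * u by
      field_simp [P.R_pos.ne'], hb _ (by positivity)]
    field_simp
  have hw : bs (t + m) ^ 2 / (2 * |quadC R d (t + m)|) = B ^ 2 / Z := by
    rw [hQ, hbs, hb _ hs, div_pow, div_div]
  obtain ⟨hlow, hupp⟩ := ratio_bounds ha.le P.a_le hd.le P.d_small hu1 hu2 hB0.le hAl hAu
  have hA : 0 < A := lt_of_lt_of_le (mul_pos (by linarith [P.a_le]) hB0) hAl
  rw [hw, hr, ← mul_div_assoc, ← mul_div_assoc]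
  exact ⟨div_le_div_of_nonneg_right hlow hZ.le, div_le_div_of_nonneg_right hupp hZ.le,
    div_pos (div_pos (pow_pos hA 2) (pow_pos hu0 3)) hZ⟩

lemma disjoint {t : ℝ} (ht : t ∈ Set.Icc η (1 / 2)) :
    Set.PairwiseDisjoint (cutSet M : Set ℤ) fun m => win R d γ (t + m) :=
  fun _m hm _m' hm' hne => Finset.disjoint_left.2 fun _k hk hk' =>
    hne (P.unique ht ht hm hm' hk hk')

/-- The count of one window. -/
lemma card_bounds {t : ℝ} (ht : t ∈ Set.Icc η (1 / 2)) (m : ℤ) :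
    η * ((R : ℝ) / (1 + d)) * d ≤ |quadC R d (t + m)| ∧
    (1 - a / 8) * (2 * |quadC R d (t + m)|) ≤ ((win R d γ (t + m)).card : ℝ) ∧
      ((win R d γ (t + m)).card : ℝ) ≤ (1 + a / 16) * (2 * |quadC R d (t + m)|) := by
  have hd := P.d_pos
  have hR' : 0 < (R : ℝ) / (1 + d) := div_pos P.R_pos (by linarith)
  obtain ⟨l1, l2⟩ := abs_le.1
    (P.facts.win_card R d γ (t + m) P.R_pos hd (P.shift_ne ht m) P.γ_pos P.γ_lt)
  have hq : η * ((R : ℝ) / (1 + d)) * d ≤ |quadC R d (t + m)| := by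
    rw [quadC, abs_mul, abs_mul, abs_of_pos hR', abs_of_pos hd]
    gcongr
    exact P.abs_shift_ge ht m
  have h8 : 8 ≤ |quadC R d (t + m)| * a := (div_le_iff₀ P.a_pos).1 (P.inv_Q.trans hq)
  have hγ' : 2 * γ ≤ a / 16 := P.γ_le.trans (min_le_left _ _)
  have hQ0 : 0 ≤ |quadC R d (t + m)| := abs_nonneg _
  refine ⟨hq, ?_, ?_⟩
  · nlinarith [mul_le_mul_of_nonneg_left hγ' hQ0]
  · nlinarith [mul_nonneg hQ0 P.γ_pos.le]

/-- Total weight at `t`. -/
theorem mass {t : ℝ} (ht : t ∈ Set.Icc η (1 / 2)) :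
    1 - a ≤ ∑ k ∈ act1 R d γ M t, rho0 R d k ∧
      ∑ k ∈ act1 R d γ M t, rho0 R d k ≤ 1 + a := by
  have ha := P.a_pos
  have ha1 := P.a_le
  rw [act1, sum_biUnion (P.disjoint ht)]
  have hb := P.facts.bf_sum t M ⟨by linarith [ht.1, P.η_pos], by linarith [ht.2]⟩ P.two_le_M
  constructor
  · calc 1 - a ≤ (1 - a / 16) * (1 - a / 8) * (1 - a ^ 2 / 64) := by
          nlinarith [mul_le_mul_of_nonneg_left ha1 ha.le]
      _ ≤ (1 - a / 16) * (1 - a / 8) * ∑ m ∈ cutSet M, bs (t + m) ^ 2 :=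
          mul_le_mul_of_nonneg_left (by linarith [hb.1, P.cut_le]) (by nlinarith)
      _ ≤ _ := by
          rw [mul_sum]
          refine sum_le_sum fun m hm => ?_
          obtain ⟨hq, hc, _⟩ := P.card_bounds ht m
          have hQ : 0 < 2 * |quadC R d (t + m)| := by linarith [P.one_le_Q]
          refine le_trans ?_ (card_nsmul_le_sum _ _ _ fun k hk => (P.rho_compare ht hm hk).1)
          rw [nsmul_eq_mul, ← mul_assoc, ← mul_div_assoc, le_div_iff₀ hQ]
          have h2 := mul_le_mul_of_nonneg_left hc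
            (mul_nonneg (show (0 : ℝ) ≤ 1 - a / 16 by linarith) (sq_nonneg (bs (t + m))))
          linarith
  · calc ∑ m ∈ cutSet M, ∑ k ∈ win R d γ (t + m), rho0 R d k
        ≤ (1 + a / 16) * (1 + a / 16) * ∑ m ∈ cutSet M, bs (t + m) ^ 2 := by
          rw [mul_sum]
          refine sum_le_sum fun m hm => ?_
          obtain ⟨hq, _, hc⟩ := P.card_bounds ht m
          have hQ : 0 < 2 * |quadC R d (t + m)| := by linarith [P.one_le_Q]
          refine (sum_le_card_nsmul _ _ _ fun k hk => (P.rho_compare ht hm hk).2.1).trans ?_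
          rw [nsmul_eq_mul, ← mul_assoc, ← mul_div_assoc, div_le_iff₀ hQ]
          have h2 := mul_le_mul_of_nonneg_left hc
            (mul_nonneg (show (0 : ℝ) ≤ 1 + a / 16 by linarith) (sq_nonneg (bs (t + m))))
          linarith
      _ ≤ (1 + a / 16) * (1 + a / 16) * 1 := mul_le_mul_of_nonneg_left hb.2 (by positivity)
      _ ≤ 1 + a := by nlinarith

/-- The weights carry nearly all of the graph's coefficients. -/
theorem overlap {t : ℝ} (ht : t ∈ Set.Icc η (1 / 2)) :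
    1 - a ≤ ∑ k ∈ act1 R d γ M t, √(rho0 R d k) * ‖H R d t k‖ := by
  classical
  have ha := P.a_pos
  have ha1 := P.a_le
  have hd := P.d_pos
  set A := act1 R d γ M t
  set r := fun k : ℤ => √(rho0 R d k)
  set x := fun (m k : ℤ) => bf t m * E R d (t + m) k
  set q := η * ((R : ℝ) / (1 + d)) * d
  set κ := min (a / 16) ((a / (16 * M)) ^ 2 / 2)
  have hM : (0 : ℝ) < M := by have := P.two_le_M; positivity
  have hr : √(∑ k ∈ A, r k ^ 2) ≤ 2 := by
    have h1 : ∑ k ∈ A, r k ^ 2 = ∑ k ∈ A, rho0 R d k :=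
      sum_congr rfl fun k _ => Real.sq_sqrt (rho0_nonneg hd.le _ k)
    rw [h1, Real.sqrt_le_left (by norm_num)]
    linarith [(P.mass ht).2]
  have hrS : ∀ S ⊆ A, √(∑ k ∈ S, r k ^ 2) ≤ 2 := fun S hS =>
    (Real.sqrt_le_sqrt (sum_le_sum_of_subset_of_nonneg hS fun k _ _ => sq_nonneg _)).trans hr
  -- the cut
  have hcut : ∑ k ∈ A, r k * ‖H R d t k - ∑ m ∈ cutSet M, x m k‖ ≤ a / 4 := by
    refine (Real.sum_mul_le_sqrt_mul_sqrt _ _ _).trans ?_
    have h1 := (P.facts.cut R d t M A P.one_le_R hd.le P.d_le_one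
      ⟨by linarith [ht.1, P.η_pos], by linarith [ht.2]⟩ P.two_le_M).trans P.cut_le
    have h2 : √(∑ k ∈ A, ‖H R d t k - ∑ m ∈ cutSet M, x m k‖ ^ 2) ≤ a / 8 :=
      Real.sqrt_le_iff.2 ⟨by positivity, h1.trans (le_of_eq (by ring))⟩
    exact (mul_le_mul hr h2 (sqrt_nonneg _) (by norm_num)).trans (le_of_eq (by ring))
  -- the cross terms
  have hcross : ∑ m ∈ cutSet M, ∑ k ∈ A \ win R d γ (t + m), r k * ‖x m k‖ ≤ a / 4 := by
    refine (sum_le_card_nsmul _ _ (2 * (a / (16 * M))) fun m hm => ?_).trans ?_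
    · refine (Real.sum_mul_le_sqrt_mul_sqrt _ _ _).trans
        (mul_le_mul (hrS _ sdiff_subset) (Real.sqrt_le_iff.2 ⟨by positivity, ?_⟩) (sqrt_nonneg _)
          (by norm_num))
      have hQ := (P.card_bounds ht m).1
      have hb1 : ‖bf t m‖ ≤ 1 := by rw [P.facts.bf_norm]; exact abs_sinc_le_one _
      calc ∑ k ∈ A \ win R d γ (t + m), ‖x m k‖ ^ 2
          ≤ ∑ k ∈ A \ win R d γ (t + m), ‖E R d (t + m) k‖ ^ 2 := sum_le_sum fun k _ => by
            refine pow_le_pow_left₀ (norm_nonneg _) ?_ 2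
            simp only [x, norm_mul]
            exact mul_le_of_le_one_left (norm_nonneg _) hb1
        _ ≤ 2 * γ + C / (γ * √|quadC R d (t + m)|) :=
            P.facts.win_out R d γ (t + m) P.R_pos hd (P.shift_ne ht m) P.γ_pos P.γ_lt
              (P.one_le_Q.trans hQ) _ disjoint_sdiff_self_left
        _ ≤ κ + κ := by
            refine add_le_add P.γ_le (le_trans ?_ P.kap_le)
            have := P.one_le_Q
            have := P.γ_pos
            have := P.C_pos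
            gcongr
        _ ≤ (a / (16 * M)) ^ 2 := by linarith [min_le_right (a / 16) ((a / (16 * M)) ^ 2 / 2)]
    · have hc : ((cutSet M).card : ℝ) = 2 * M := by
        rw [cutSet, Int.card_Ico, show ((M : ℤ) - -(M : ℤ)).toNat = 2 * M by omega]
        simp
      rw [nsmul_eq_mul, hc]
      exact le_of_eq (by field_simp; ring)
  -- the main terms
  have hb := P.facts.bf_sum t M ⟨by linarith [ht.1, P.η_pos], by linarith [ht.2]⟩ P.two_le_M
  have hmain : (1 - a / 16) * (1 - a / 16) * (1 - a / 8) * (1 - a ^ 2 / 64) ≤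
      ∑ m ∈ cutSet M, ∑ k ∈ win R d γ (t + m), r k * ‖x m k‖ := by
    refine le_trans (mul_le_mul_of_nonneg_left (b := 1 - a ^ 2 / 64)
      (c := ∑ m ∈ cutSet M, bs (t + m) ^ 2) (by linarith [hb.1, P.cut_le])
      (mul_nonneg (by nlinarith) (by linarith))) ?_
    rw [mul_sum]
    refine sum_le_sum fun m hm => ?_
    obtain ⟨hq, hc, _⟩ := P.card_bounds ht m
    set Q := 2 * |quadC R d (t + m)|
    have hQ : 0 < Q := by simp only [Q]; linarith [P.one_le_Q]
    set c := (1 - a / 16) * (1 - a / 16) * (bs (t + m) ^ 2 / Q)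
    have hc0 : 0 ≤ c := mul_nonneg (mul_nonneg (by linarith) (by linarith))
      (div_nonneg (sq_nonneg _) hQ.le)
    refine le_trans ?_ (card_nsmul_le_sum _ _ c fun k hk => ?_)
    · rw [nsmul_eq_mul]
      refine le_trans (le_of_eq ?_) (mul_le_mul_of_nonneg_right hc hc0)
      simp only [c]
      field_simp
    · have h1 : (1 - a / 16) * (bs (t + m) / √Q) ≤ r k := by
        refine Real.le_sqrt_of_sq_le (le_trans ?_ (P.rho_compare ht hm hk).1)
        rw [mul_pow, div_pow, Real.sq_sqrt hQ.le]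
        exact mul_le_mul_of_nonneg_right (pow_le_of_le_one (by linarith) (by linarith) two_ne_zero)
          (by positivity)
      have hk0 : C / (γ * √|quadC R d (t + m)|) ≤ a / 16 := by
        refine le_trans ?_ (P.kap_le.trans (min_le_left _ _))
        have := P.one_le_Q
        have := P.γ_pos
        have := P.C_pos
        gcongr
      have h2 : (1 - a / 16) / √Q ≤ ‖E R d (t + m) k‖ :=
        le_trans (div_le_div_of_nonneg_right (by linarith) (sqrt_nonneg _))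
          (P.facts.win_lower R d γ (t + m) P.R_pos hd (P.shift_ne ht m) P.γ_pos P.γ_lt k hk)
      have hbs0 : 0 ≤ bs (t + m) := abs_nonneg _
      simp only [x, norm_mul, P.facts.bf_norm]
      calc c = (1 - a / 16) * (bs (t + m) / √Q) * (bs (t + m) * ((1 - a / 16) / √Q)) := by
            simp only [c]
            field_simp
            rw [Real.sq_sqrt hQ.le]
        _ ≤ _ := mul_le_mul h1 (mul_le_mul_of_nonneg_left h2 hbs0)
            (mul_nonneg hbs0 (div_nonneg (by linarith) (sqrt_nonneg _))) (sqrt_nonneg _)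
  -- assembly
  have hpoint : ∀ m ∈ cutSet M, ∀ k ∈ win R d γ (t + m), r k * ‖x m k‖ ≤
      r k * ‖H R d t k‖ + r k * ‖H R d t k - ∑ m' ∈ cutSet M, x m' k‖ +
        ∑ m' ∈ cutSet M, if k ∈ win R d γ (t + m') then 0 else r k * ‖x m' k‖ := by
    intro m hm k hk
    have e1 : (∑ m' ∈ cutSet M, if k ∈ win R d γ (t + m') then 0 else r k * ‖x m' k‖) =
        ∑ m' ∈ (cutSet M).erase m, r k * ‖x m' k‖ := by
      rw [← add_sum_erase _ _ hm, if_pos hk, zero_add]
      exact sum_congr rfl fun m' hm' => if_neg fun h =>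
        (mem_erase.1 hm').1 (P.unique ht ht (mem_erase.1 hm').2 hm h hk)
    rw [e1, ← mul_sum, ← mul_add, ← mul_add]
    refine mul_le_mul_of_nonneg_left ?_ (sqrt_nonneg _)
    have h1 := add_sum_erase (cutSet M) (fun m' => x m' k) hm
    calc ‖x m k‖ = ‖(∑ m' ∈ cutSet M, x m' k) - ∑ m' ∈ (cutSet M).erase m, x m' k‖ := by
          rw [← h1, add_sub_cancel_right]
      _ ≤ ‖∑ m' ∈ cutSet M, x m' k‖ + ‖∑ m' ∈ (cutSet M).erase m, x m' k‖ := norm_sub_le _ _
      _ ≤ _ := add_le_add (norm_le_norm_add_norm_sub (H R d t k) _) (norm_sum_le _ _)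
  have hall : ∑ m ∈ cutSet M, ∑ k ∈ win R d γ (t + m), r k * ‖x m k‖ ≤
      ∑ k ∈ A, r k * ‖H R d t k‖ + ∑ k ∈ A, r k * ‖H R d t k - ∑ m' ∈ cutSet M, x m' k‖ +
        ∑ m' ∈ cutSet M, ∑ k ∈ A \ win R d γ (t + m'), r k * ‖x m' k‖ := by
    refine (sum_le_sum fun m hm => sum_le_sum (hpoint m hm)).trans (le_of_eq ?_)
    rw [← sum_biUnion (P.disjoint ht)]
    change ∑ k ∈ A, _ = _
    rw [sum_add_distrib, sum_add_distrib, Finset.sum_comm (s := A) (t := cutSet M)]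
    congr 1
    refine sum_congr rfl fun m' _ => ?_
    rw [sum_ite, sum_const_zero, zero_add, sdiff_eq_filter]
  have hnum : 1 - a / 2 ≤ (1 - a / 16) * (1 - a / 16) * (1 - a / 8) * (1 - a ^ 2 / 64) := by
    nlinarith [mul_le_mul_of_nonneg_left ha1 ha.le, mul_nonneg ha.le ha.le,
      mul_nonneg (mul_nonneg ha.le ha.le) ha.le]
  change 1 - a ≤ ∑ k ∈ A, r k * ‖H R d t k‖
  linarith

end Par

end Vale.Agent.P130.Rank.GW
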